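import Vale.Agent.Lib.P262C.SplitData

/-!
# The two children of a node
-/

open Finset
open Vale.Agent.Lib.P262B

namespace Vale.Agent.Lib.P262C

set_option linter.unusedSectionVars false
set_option linter.unusedSimpArgs false
set_option linter.unusedVariables false

variable {ι : Type*} [Fintype ι] [DecidableEq ι] {d : ℕ}
variable {p : Pr d} {v : ι → Fin d → ℝ} {ν : Fin d → ℝ} {ℓ : ℕ} {L : Finset (Fin d)}
  {G : Finset ι} {x y : Fin d → ℝ} {h h₂ ea eb e e' : ι} {R R₁ R₂ RC : Finset ι}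
  {D : (ι → ℝ) → ℝ} {m : Fin d → ℝ} {φ : ℝ} {ee : Fin d → ℝ} {ς : ℝ}

namespace Ch

lemma h_notin (sd : SplitData p v ν ℓ L G x y h h₂ ea eb R R₁ R₂ D m φ ee) : h ∉ R := by
  intro h0
  exact sd.hh (Finset.mem_insert_of_mem h0)

lemma h_ne (sd : SplitData p v ν ℓ L G x y h h₂ ea eb R R₁ R₂ D m φ ee) : h ≠ h₂ := by
  intro h0
  exact sd.hh (by simp [h0])

lemma e_notin (sd : SplitData p v ν ℓ L G x y h h₂ ea eb R R₁ R₂ D m φ ee)
    (ch : ChildOf h h₂ R D e e' RC ς) : e ∉ R := by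
  rcases ch.he with ⟨h1, _⟩ | ⟨h1, _⟩
  · rw [h1]
    exact h_notin sd
  · rw [h1]
    exact sd.hh₂

lemma e_notin_RC (sd : SplitData p v ν ℓ L G x y h h₂ ea eb R R₁ R₂ D m φ ee)
    (ch : ChildOf h h₂ R D e e' RC ς) : e ∉ RC := fun h0 => e_notin sd ch (ch.hRC h0)

lemma sum_R (sd : SplitData p v ν ℓ L G x y h h₂ ea eb R R₁ R₂ D m φ ee) (w : ι → ℝ) :
    ∑ i ∈ G, w i = w h + (w h₂ + ∑ i ∈ R, w i) := sum_decomp sd.hG sd.hh sd.hh₂ w

lemma sum_G (sd : SplitData p v ν ℓ L G x y h h₂ ea eb R R₁ R₂ D m φ ee)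
    (ch : ChildOf h h₂ R D e e' RC ς) (w : ι → ℝ) :
    ∑ i ∈ G, w i = w e + (w e' + ∑ i ∈ R, w i) := by
  rw [sum_R sd]
  rcases ch.he with ⟨h1, h2⟩ | ⟨h1, h2⟩
  · rw [h1, h2]
  · rw [h1, h2]
    ring

lemma sum_C (sd : SplitData p v ν ℓ L G x y h h₂ ea eb R R₁ R₂ D m φ ee)
    (ch : ChildOf h h₂ R D e e' RC ς) (w : ι → ℝ) :
    ∑ i ∈ insert e RC, w i = w e + ∑ i ∈ RC, w i :=
  Finset.sum_insert (e_notin_RC sd ch)

lemma R_sub (sd : SplitData p v ν ℓ L G x y h h₂ ea eb R R₁ R₂ D m φ ee) : R ⊆ G := by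
  rw [sd.hG]
  intro i hi
  exact Finset.mem_insert_of_mem (Finset.mem_insert_of_mem hi)

lemma e_mem (sd : SplitData p v ν ℓ L G x y h h₂ ea eb R R₁ R₂ D m φ ee)
    (ch : ChildOf h h₂ R D e e' RC ς) : e ∈ G := by
  rw [sd.hG]
  rcases ch.he with ⟨h1, _⟩ | ⟨h1, _⟩
  · rw [h1]
    exact Finset.mem_insert_self _ _
  · rw [h1]
    exact Finset.mem_insert_of_mem (Finset.mem_insert_self _ _)

lemma sub_G (sd : SplitData p v ν ℓ L G x y h h₂ ea eb R R₁ R₂ D m φ ee)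
    (ch : ChildOf h h₂ R D e e' RC ς) : insert e RC ⊆ G := by
  intro i hi
  rcases Finset.mem_insert.1 hi with rfl | hi'
  · exact e_mem sd ch
  · exact R_sub sd (ch.hRC hi')

/-- The energies of a child. -/
lemma energy_eq (sd : SplitData p v ν ℓ L G x y h h₂ ea eb R R₁ R₂ D m φ ee)
    (ch : ChildOf h h₂ R D e e' RC ς) (j : Fin d) :
    mu v (insert e RC) j = 1 / 2 * mu v G j + 1 / 2 * ((v e j) ^ 2 - (v e' j) ^ 2)
      + ς * D (rowE v j) := by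
  have h1 : mu v G j = (v e j) ^ 2 + ((v e' j) ^ 2 + ∑ i ∈ R, (v i j) ^ 2) :=
    sum_G sd ch (fun i => (v i j) ^ 2)
  have h2 : mu v (insert e RC) j = (v e j) ^ 2 + ∑ i ∈ RC, (v i j) ^ 2 :=
    sum_C sd ch (fun i => (v i j) ^ 2)
  have h3 : ∑ i ∈ RC, (v i j) ^ 2 = 1 / 2 * ∑ i ∈ R, (v i j) ^ 2 + ς * D (rowE v j) :=
    ch.hsum (rowE v j)
  rw [h2, h3, h1]
  ring

lemma trk_pred {j : Fin d} (hj : Trk p ν (ℓ + 1) j) : Trk p ν ℓ j := by
  unfold Trk at hj ⊢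
  have hL := p.Lp_pos
  have hpow : (0 : ℝ) < 2 ^ ℓ := by positivity
  rw [pow_succ] at hj
  nlinarith [mul_pos hpow hL]

/-- The arithmetic of the tracking step. -/
lemma track_arith {P μ n φ A a Dv τ₁ τ₂ : ℝ} (hP : 0 < P) (hφ0 : 0 ≤ φ)
    (h1 : |P * μ - n| ≤ 2 * P * A + τ₁) (hb : P * μ ≤ 5 / 4 * n) (hφ : 5 / 2 * n * φ ≤ τ₂)
    (ha : |a| ≤ 1 / 2) (hD : |Dv| ≤ φ * μ + (A - 1)) :
    |2 * P * (1 / 2 * μ + a + Dv) - n| ≤ 2 * (2 * P) * A + (τ₁ + τ₂) := by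
  have hk : 2 * P * (φ * μ) ≤ τ₂ := by
    have h9 : 2 * P * (φ * μ) = 2 * φ * (P * μ) := by ring
    rw [h9]
    have h10 : 2 * φ * (P * μ) ≤ 2 * φ * (5 / 4 * n) :=
      mul_le_mul_of_nonneg_left hb (by positivity)
    have h11 : 2 * φ * (5 / 4 * n) = 5 / 2 * n * φ := by ring
    linarith
  have hexp : 2 * P * (1 / 2 * μ + a + Dv) - n = (P * μ - n) + 2 * P * a + 2 * P * Dv := by ring
  have h2P : 0 ≤ 2 * P := by positivity
  have hPa1 : 2 * P * a ≤ 2 * P * (1 / 2) := mul_le_mul_of_nonneg_left (abs_le.1 ha).2 h2P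
  have hPa2 : 2 * P * (-(1 / 2)) ≤ 2 * P * a := mul_le_mul_of_nonneg_left (abs_le.1 ha).1 h2P
  have hPD1 : 2 * P * Dv ≤ 2 * P * (φ * μ + (A - 1)) :=
    mul_le_mul_of_nonneg_left (abs_le.1 hD).2 h2P
  have hPD2 : 2 * P * (-(φ * μ + (A - 1))) ≤ 2 * P * Dv :=
    mul_le_mul_of_nonneg_left (abs_le.1 hD).1 h2P
  have e2 : 2 * P * (φ * μ + (A - 1)) = 2 * P * (φ * μ) + 2 * P * A - 2 * P := by ring
  have e3 : 2 * P * (-(φ * μ + (A - 1))) = -(2 * P * (φ * μ) + 2 * P * A - 2 * P) := by ring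
  have e4 : 2 * P * (1 / 2) = P := by ring
  have e5 : 2 * P * (-(1 / 2)) = -P := by ring
  have e6 : 2 * (2 * P) * A = 2 * P * A + 2 * P * A := by ring
  rw [e2] at hPD1
  rw [e3] at hPD2
  rw [e4] at hPa1
  rw [e5] at hPa2
  have h1' := abs_le.1 h1
  rw [hexp, e6, abs_le]
  constructor <;> linarith [h1'.1, h1'.2]

/-- Energies of a child follow the nominal energies. -/
lemma track_child (hv : ∀ i, ∑ j, (v i j) ^ 2 ≤ 1) (hν : ∀ j, 0 ≤ ν j)
    (sd : SplitData p v ν ℓ L G x y h h₂ ea eb R R₁ R₂ D m φ ee)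
    (ch : ChildOf h h₂ R D e e' RC ς) (htr : TInv p v ν ℓ G) :
    TInv p v ν (ℓ + 1) (insert e RC) := by
  intro j hj
  have hjℓ : Trk p ν ℓ j := trk_pred hj
  have h1 := htr j hjℓ
  have hb := (track_bounds hν htr hjℓ).2
  have hE := energy_eq sd ch j
  have hD : |ς * D (rowE v j)| ≤ φ * mu v G j + ((d : ℝ) ^ 2 + d + 3) := by
    rw [ChildOf.abs_mul_ς ch]
    exact sd.bE j
  have hφ0 := sd.hφ0
  have hν0 := hν j
  have hp1 : (2 : ℝ) ^ (ℓ + 1) = 2 * 2 ^ ℓ := by ring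
  have hp2 : (2 : ℝ) ^ (ℓ + 1 + 1) = 2 * (2 * 2 ^ ℓ) := by ring
  have h5 := coord_sq_le hv e j
  have h6 := coord_sq_le hv e' j
  have h7 := sq_nonneg (v e j)
  have h8 := sq_nonneg (v e' j)
  have ha1 : |1 / 2 * ((v e j) ^ 2 - (v e' j) ^ 2)| ≤ 1 / 2 := by
    rw [abs_le]
    constructor <;> nlinarith
  have hA3 : (d : ℝ) ^ 2 + d + 3 = ((d : ℝ) ^ 2 + d + 4) - 1 := by ring
  rw [hA3] at hD
  rw [hp1] at h1
  have hφ' : 5 / 2 * ν j * φ ≤ 15 * p.b * ν j * (tau p ν (ℓ + 1) - tau p ν ℓ) := by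
    have h12 : 5 / 2 * ν j * φ ≤ 5 / 2 * ν j * (6 * p.b * (tau p ν (ℓ + 1) - tau p ν ℓ)) :=
      mul_le_mul_of_nonneg_left sd.hφ (by positivity)
    have h13 : 5 / 2 * ν j * (6 * p.b * (tau p ν (ℓ + 1) - tau p ν ℓ))
        = 15 * p.b * ν j * (tau p ν (ℓ + 1) - tau p ν ℓ) := by ring
    linarith
  have hpow : (0 : ℝ) < 2 ^ ℓ := by positivity
  have key := track_arith hpow hφ0 h1 hb hφ' ha1 hD
  rw [hp1, hp2, hE]
  have htau : 15 * p.b * ν j * (tau p ν (ℓ + 1) - tau p ν 0)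
      = 15 * p.b * ν j * (tau p ν ℓ - tau p ν 0)
        + 15 * p.b * ν j * (tau p ν (ℓ + 1) - tau p ν ℓ) := by ring
  rw [htau]
  exact key

/-- Energies of the coordinates which are not tracked. -/
lemma unt_child (hν : ∀ j, 0 ≤ ν j) (sd : SplitData p v ν ℓ L G x y h h₂ ea eb R R₁ R₂ D m φ ee)
    (ch : ChildOf h h₂ R D e e' RC ς) (htr : TInv p v ν ℓ G) (hun : UInv p v ν ℓ G) :
    UInv p v ν (ℓ + 1) (insert e RC) := by
  intro j hj
  have hs := sub_G sd ch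
  have hm := ChildOf.mu_mono (v := v) hs j
  by_cases ht : Trk p ν ℓ j
  · have h1 := (track_bounds hν htr ht).2
    have h2 : ν j < (2 : ℝ) ^ (ℓ + 1) * p.Lp := not_le.1 hj
    have hpow : (0 : ℝ) < 2 ^ ℓ := by positivity
    rw [pow_succ] at h2
    have h3 : (2 : ℝ) ^ ℓ * mu v G j ≤ (2 : ℝ) ^ ℓ * (5 / 2 * p.Lp) := by nlinarith
    have h4 := le_of_mul_le_mul_left h3 hpow
    linarith
  · have := hun j ht
    linarith

/-- The mixed moments of a child. -/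
lemma orth_child (hv : ∀ i, ∑ j, (v i j) ^ 2 ≤ 1) (hν : ∀ j, 0 ≤ ν j)
    (sd : SplitData p v ν ℓ L G x y h h₂ ea eb R R₁ R₂ D m φ ee)
    (ch : ChildOf h h₂ R D e e' RC ς) (horth : OInv p v ν ℓ G) (htr : TInv p v ν ℓ G) :
    OInv p v ν (ℓ + 1) (insert e RC) := by
  intro j l hjl hj hl
  have h0 := horth j l hjl (trk_pred hj) (trk_pred hl)
  have h1 : Mx v G j l = v e j * v e l + (v e' j * v e' l + ∑ i ∈ R, v i j * v i l) :=
    sum_G sd ch (fun i => v i j * v i l)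
  have h2 : Mx v (insert e RC) j l = v e j * v e l + ∑ i ∈ RC, v i j * v i l :=
    sum_C sd ch (fun i => v i j * v i l)
  have h3 : ∑ i ∈ RC, v i j * v i l = 1 / 2 * ∑ i ∈ R, v i j * v i l + ς * D (rowP v j l) :=
    ch.hsum (rowP v j l)
  have h4 : |ς * D (rowP v j l)| ≤ p.ε * Real.sqrt (mu v G l) + ((d : ℝ) ^ 2 + d + 3) := by
    rw [ChildOf.abs_mul_ς ch]
    exact sd.bO j l
  have hone : ∀ i, |v i j * v i l| ≤ 1 := by
    intro i
    rw [abs_mul]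
    have h5 := coord_abs_le hv i j
    have h6 := coord_abs_le hv i l
    nlinarith [abs_nonneg (v i j), abs_nonneg (v i l)]
  have h5 := abs_le.1 (hone e)
  have h6 := abs_le.1 (hone e')
  have h7 : Mx v (insert e RC) j l = 1 / 2 * Mx v G j l + (1 / 2 * (v e j * v e l)
      - 1 / 2 * (v e' j * v e' l)) + ς * D (rowP v j l) := by
    rw [h2, h3, h1]
    ring
  -- comparison of square roots
  have htrC := track_child hv hν sd ch htr
  have hb1 := (track_bounds hν htrC hl).1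
  have hb2 := (track_bounds hν htr (trk_pred hl)).2
  have hpow : (0 : ℝ) < 2 ^ ℓ := by positivity
  have hratio : mu v G l ≤ (11 / 6) ^ 2 * mu v (insert e RC) l := by
    rw [pow_succ] at hb1
    have hν0 := hν l
    have h8 : (2 : ℝ) ^ ℓ * mu v G l ≤ (2 : ℝ) ^ ℓ * ((11 / 6) ^ 2 * mu v (insert e RC) l) := by
      nlinarith
    exact le_of_mul_le_mul_left h8 hpow
  have hsq : Real.sqrt (mu v G l) ≤ 11 / 6 * Real.sqrt (mu v (insert e RC) l) := by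
    have h8 : (11 / 6 : ℝ) * Real.sqrt (mu v (insert e RC) l)
        = Real.sqrt ((11 / 6) ^ 2 * mu v (insert e RC) l) := by
      rw [Real.sqrt_mul (by norm_num), Real.sqrt_sq (by norm_num)]
    rw [h8]
    exact Real.sqrt_le_sqrt hratio
  have hε0 := p.hε0
  have hs0 := Real.sqrt_nonneg (mu v (insert e RC) l)
  have hs1 := Real.sqrt_nonneg (mu v G l)
  have hΔ := p.hΔ
  have h8 : (1 / 2 * (25 * p.ε) + p.ε) * Real.sqrt (mu v G l)
      ≤ 25 * p.ε * Real.sqrt (mu v (insert e RC) l) := by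
    have h9 : (1 / 2 * (25 * p.ε) + p.ε) * Real.sqrt (mu v G l)
        ≤ (1 / 2 * (25 * p.ε) + p.ε) * (11 / 6 * Real.sqrt (mu v (insert e RC) l)) :=
      mul_le_mul_of_nonneg_left hsq (by positivity)
    have h10 : (1 / 2 * (25 * p.ε) + p.ε) * (11 / 6 * Real.sqrt (mu v (insert e RC) l))
        ≤ 25 * p.ε * Real.sqrt (mu v (insert e RC) l) := by
      nlinarith [mul_nonneg hε0 hs0]
    linarith
  have h9 := abs_le.1 h0
  have h10 := abs_le.1 h4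
  rw [h7, abs_le]
  constructor <;> nlinarith [h9.1, h9.2, h10.1, h10.2, h5.1, h5.2, h6.1, h6.2]

lemma pm_e_le (sd : SplitData p v ν ℓ L G x y h h₂ ea eb R R₁ R₂ D m φ ee)
    (ch : ChildOf h h₂ R D e e' RC ς) : pm v L e ≤ pm v L h := by
  rcases ch.he with ⟨h1, _⟩ | ⟨h1, _⟩
  · rw [h1]
  · rw [h1]
    exact sd.hh₂h

lemma top (sd : SplitData p v ν ℓ L G x y h h₂ ea eb R R₁ R₂ D m φ ee)
    (ch : ChildOf h h₂ R D e e' RC ς) : Top v L (insert e RC) e := by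
  refine ⟨Finset.mem_insert_self _ _, ?_⟩
  intro i hi
  rcases Finset.mem_insert.1 hi with rfl | hi'
  · exact le_rfl
  · have h1 := sd.hR2 i (ch.hRC hi')
    rcases ch.he with ⟨h2, _⟩ | ⟨h2, _⟩
    · rw [h2]
      exact h1.trans sd.hh₂h
    · rw [h2]
      exact h1

lemma Ep_child (sd : SplitData p v ν ℓ L G x y h h₂ ea eb R R₁ R₂ D m φ ee)
    (ch : ChildOf h h₂ R D e e' RC ς) :
    Ep v L (insert e RC) e = ∑ i ∈ RC, pm v L i := by
  unfold Ep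
  rw [Finset.erase_insert (e_notin_RC sd ch)]

lemma Ep_parent (sd : SplitData p v ν ℓ L G x y h h₂ ea eb R R₁ R₂ D m φ ee) :
    Ep v L G h = pm v L h₂ + ∑ i ∈ R, pm v L i := by
  unfold Ep
  rw [sd.hG, Finset.erase_insert sd.hh, Finset.sum_insert sd.hh₂]

lemma Ep_contract (sd : SplitData p v ν ℓ L G x y h h₂ ea eb R R₁ R₂ D m φ ee)
    (ch : ChildOf h h₂ R D e e' RC ς) :
    Ep v L (insert e RC) e ≤ 8 / 9 * Ep v L G h := by
  rw [Ep_child sd ch, Ep_parent sd]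
  refine low_contract' (pm_nonneg L h₂) (Finset.sum_nonneg fun _ _ => pm_nonneg L _) p.hε0 p.hε1
    (Finset.sum_le_sum_of_subset_of_nonneg ch.hRC (fun _ _ _ => pm_nonneg L _)) ?_
  have h1 : ∑ i ∈ RC, pm v L i = 1 / 2 * ∑ i ∈ R, pm v L i + ς * D (pm v L) := ch.hsum (pm v L)
  have h2 : |ς * D (pm v L)| ≤ _ := (ChildOf.abs_mul_ς ch _).le.trans sd.bPm
  have h3 := (abs_le.1 h2).2
  linarith

lemma sg_erase (sd : SplitData p v ν ℓ L G x y h h₂ ea eb R R₁ R₂ D m φ ee) (j : Fin d) :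
    sg v (G.erase h) j = v h₂ j + sg v R j := by
  unfold sg
  rw [sd.hG, Finset.erase_insert sd.hh, Finset.sum_insert sd.hh₂]

lemma Sp_le (sd : SplitData p v ν ℓ L G x y h h₂ ea eb R R₁ R₂ D m φ ee)
    (ch : ChildOf h h₂ R D e e' RC ς) :
    Sp v L (insert e RC) e ≤ Sp v L G h / 2 +
      (1 / 2 + p.ε + 11) * Real.sqrt (Ep v L G h) := by
  have hRC : (insert e RC).erase e = RC := Finset.erase_insert (e_notin_RC sd ch)
  unfold Sp
  rw [hRC]
  have h1 : sg v RC = (fun j => (1 / 2 : ℝ) * sg v R j) + (fun j => ς * D (rowC v j)) := by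
    funext j
    exact ch.hsum (rowC v j)
  have h2 := nrm_add_le L (fun j => (1 / 2 : ℝ) * sg v R j) (fun j => ς * D (rowC v j))
  rw [← h1, nrm_scale, nrm_scale] at h2
  have h3 : |(1 / 2 : ℝ)| = 1 / 2 := by norm_num
  have h4 : |ς| = 1 := by
    rcases ch.hς with h5 | h5 <;> simp [h5]
  rw [h3, h4, one_mul] at h2
  have h5 : sg v R = sg v (G.erase h) + (fun j => (-1 : ℝ) * v h₂ j) := by
    funext j
    have := sg_erase sd j
    simp only [Pi.add_apply]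
    linarith
  have h6 := nrm_add_le L (sg v (G.erase h)) (fun j => (-1 : ℝ) * v h₂ j)
  rw [← h5, nrm_scale] at h6
  simp only [abs_neg, abs_one, one_mul] at h6
  have h7 : nrm L (v h₂) = Real.sqrt (pm v L h₂) := rfl
  have h8 := sd.bN
  have h9 : Real.sqrt (pm v L h₂) ≤ Real.sqrt (Ep v L G h) := by
    refine Real.sqrt_le_sqrt ?_
    rw [Ep_parent sd]
    have : 0 ≤ ∑ i ∈ R, pm v L i := Finset.sum_nonneg fun _ _ => pm_nonneg L _
    linarith
  have h10 : Real.sqrt (∑ i ∈ R, pm v L i) ≤ Real.sqrt (Ep v L G h) := by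
    refine Real.sqrt_le_sqrt ?_
    rw [Ep_parent sd]
    have := pm_nonneg (v := v) L h₂
    linarith
  have h11 : (p.ε + 11) * Real.sqrt (∑ i ∈ R, pm v L i)
      ≤ (p.ε + 11) * Real.sqrt (Ep v L G h) :=
    mul_le_mul_of_nonneg_left h10 (by
      have := p.hε0
      positivity)
  rw [h7] at h6
  nlinarith

/-- The slack pays for the growth of the block at the midpoint. -/
lemma xi_child (sd : SplitData p v ν ℓ L G x y h h₂ ea eb R R₁ R₂ D m φ ee)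
    (ch : ChildOf h h₂ R D e e' RC ς) :
    XiQ v L (insert e RC) e ≤ XiQ v L G h ∧
    XiQ v L (insert e RC) e +
      (1 / 2 * Real.sqrt (pm v L h) * Real.sqrt (pm v L h₂) + 1 / 4 * (Real.sqrt (pm v L h₂)) ^ 2
      + 1 / 2 * Real.sqrt (pm v L h) * Sp v L G h - 1 / 4 * (Sp v L G h) ^ 2
      + 2 * (Real.sqrt p.B + 1) * p.ε * Real.sqrt (∑ i ∈ R, pm v L i)
      + (103 + p.ε ^ 2) * (Real.sqrt (∑ i ∈ R, pm v L i)) ^ 2) ≤ XiQ v L G h := by
  have hε0 := p.hε0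
  have hε1 := p.hε1
  have hE2 : 0 ≤ ∑ i ∈ R, pm v L i := Finset.sum_nonneg fun _ _ => pm_nonneg L _
  have hp2 := pm_nonneg (v := v) L h₂
  have hpar := Ep_parent (v := v) sd
  refine xi_step' (κ := 1 / 2 + p.ε + 11) (by norm_num) (by norm_num) (by positivity)
    (by positivity) (Real.sqrt_nonneg _) (Real.sqrt_nonneg _)
    (Real.sqrt_le_sqrt (pm_e_le sd ch)) (Real.sqrt_nonneg _) (Real.sqrt_nonneg _) ?_
    (nrm_nonneg _ _) (nrm_nonneg _ _) (Sp_le sd ch) (Real.sqrt_nonneg _) ?_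
    (Real.sqrt_le_sqrt sd.hh₂h) (Real.sqrt_nonneg _) ?_ ?_ ?_ p.hη
  · rw [Real.sq_sqrt (ChildOf.Ep_nonneg L _ _), Real.sq_sqrt (ChildOf.Ep_nonneg L _ _)]
    exact Ep_contract sd ch
  · refine Real.sqrt_le_sqrt ?_
    rw [hpar]
    linarith
  · refine Real.sqrt_le_sqrt ?_
    rw [hpar]
    linarith
  · linarith
  · nlinarith

/-- The energy functional sums the energies with weights. -/
lemma band_sum (G : Finset ι) (Bd : Finset (Fin d)) (K : Finset ι) :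
    ∑ j ∈ Bd, kap (mu v G j / 2) * mu v K j = ∑ i ∈ K, gBand v G Bd i := by
  unfold gBand mu
  simp only [Finset.mul_sum]
  rw [Finset.sum_comm]

/-- The drop of the potential of the band. -/
lemma band_drop (hv : ∀ i, ∑ j, (v i j) ^ 2 ≤ 1)
    (sd : SplitData p v ν ℓ L G x y h h₂ ea eb R R₁ R₂ D m φ ee)
    (ch : ChildOf h h₂ R D e e' RC ς) (hband : ∀ j ∈ Ts p ν ℓ \ L, 64 ≤ mu v G j) :
    ∑ j ∈ Ts p ν ℓ \ L, psi (mu v (insert e RC) j) + 18000 * ((Ts p ν ℓ \ L).card : ℝ)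
      ≤ ∑ j ∈ Ts p ν ℓ \ L, psi (mu v G j) := by
  set Bd := Ts p ν ℓ \ L with hBd
  set M : ℝ := (Bd.card : ℝ) with hM
  have hM0 : 0 ≤ M := Nat.cast_nonneg _
  have hrow : ∀ j ∈ Bd, psi (mu v (insert e RC) j) + 21250
      ≤ psi (mu v G j) + kap (mu v G j / 2) * mu v (insert e RC) j
        - 1 / 2 * (kap (mu v G j / 2) * mu v G j) := by
    intro j hj
    have h1 := hband j hj
    have h2 := psi_tangent (mu_nonneg v (insert e RC) j) (by linarith : 0 < mu v G j / 2)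
    have h3 := psi_drop h1
    have h4 : kap (mu v G j / 2) * (mu v (insert e RC) j - mu v G j / 2)
        = kap (mu v G j / 2) * mu v (insert e RC) j - 1 / 2 * (kap (mu v G j / 2) * mu v G j) := by
      ring
    linarith
  have hsum := Finset.sum_le_sum hrow
  simp only [Finset.sum_add_distrib, Finset.sum_sub_distrib, Finset.sum_const, nsmul_eq_mul,
    ← Finset.mul_sum] at hsum
  rw [band_sum G Bd, band_sum G Bd] at hsum
  set g : ι → ℝ := gBand v G Bd with hg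
  have h1 : ∑ i ∈ insert e RC, g i = g e + ∑ i ∈ RC, g i := sum_C sd ch g
  have h2 : ∑ i ∈ G, g i = g e + (g e' + ∑ i ∈ R, g i) := sum_G sd ch g
  have h3 : ∑ i ∈ RC, g i = 1 / 2 * ∑ i ∈ R, g i + ς * D g := ch.hsum g
  have h4 : |ς * D g| ≤ 2069 * M := by
    rw [ChildOf.abs_mul_ς ch]
    exact sd.bG
  have h5 : g e ≤ 42500 / 64 * M := gBand_card hv G Bd e
  have h6 : 0 ≤ g e' := gBand_nonneg G Bd e'
  have h7 := (abs_le.1 h4).2
  have h8 : (Bd.card : ℝ) = M := rfl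
  rw [h8, h1, h2, h3] at hsum
  linarith

end Ch

end Vale.Agent.Lib.P262C
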