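import Vale.Agent.Lib.P262C.Params
import Vale.Agent.Lib.P262B.Main

/-!
# The Euclidean Steinitz constant is `O(√(d log d))`

The coordinates are taken in an eigenbasis of the second moment form of the family, so that
the mixed moments of the whole family vanish.
-/

open Finset
open scoped InnerProductSpace
open Vale.Agent.Lib.P262B

namespace Vale.Agent.Lib.P262C

set_option linter.unusedSectionVars false
set_option linter.unusedSimpArgs false
set_option linter.unusedVariables false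

/-- The bound in terms of the number of rounds. -/
lemma final_bound' (d : ℕ) (hd : 1 ≤ d) :
    (mkPr d).B ≤ 5000000 * ((d : ℝ) * (nP d : ℝ)) := by
  have hB : (mkPr d).B = bB d := rfl
  rw [hB]
  unfold bB
  have h1 := jJ_le d
  have h2 := jJ_nonneg d
  have hd' : (1 : ℝ) ≤ d := by
    exact_mod_cast hd
  have hP := nP_ge d
  have h3 : (jJ d + 8464) * ((d : ℝ) + 1) ≤ (2500000 * (nP d : ℝ)) * (2 * (d : ℝ)) :=
    mul_le_mul h1 (by linarith) (by linarith) (by positivity)
  nlinarith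

/-- The main theorem with the number of rounds as the logarithmic factor. -/
theorem steinitz_sqrtlog' (d N : ℕ) (v : Fin N → EuclideanSpace ℝ (Fin d)) (hv : ∀ i, ‖v i‖ ≤ 1)
    (h0 : ∑ i, v i = 0) :
    ∃ π : Equiv.Perm (Fin N), ∀ (k : ℕ) (hk : k ≤ N),
      ‖∑ i : Fin k, v (π (Fin.castLE hk i))‖ ≤ 2300 * Real.sqrt ((d : ℝ) * (nP d : ℝ)) := by
  classical
  rcases Nat.eq_zero_or_pos N with hN | hN
  · subst hN
    refine ⟨1, fun k hk => ?_⟩
    have hk0 : k = 0 := by omega
    subst hk0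
    simp only [Finset.univ_eq_empty, Finset.sum_empty, norm_zero]
    positivity
  rcases Nat.eq_zero_or_pos d with hd | hd
  · subst hd
    refine ⟨1, fun k hk => ?_⟩
    have : ∀ z : EuclideanSpace ℝ (Fin 0), ‖z‖ = 0 := by
      intro z
      have : z = 0 := Subsingleton.elim _ _
      simp [this]
    rw [this]
    positivity
  have : Nonempty (Fin N) := ⟨⟨0, hN⟩⟩
  let E := EuclideanSpace ℝ (Fin d)
  -- the second moment operator
  let T : E →ₗ[ℝ] E :=
    ∑ i, (innerₛₗ ℝ (v i)).smulRight (v i)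
  have hTapp : ∀ u, T u = ∑ i, ⟪v i, u⟫_ℝ • v i := by
    intro u
    simp [T, LinearMap.sum_apply]
  have hT : T.IsSymmetric := by
    intro a c
    rw [hTapp, hTapp, sum_inner, inner_sum]
    refine Finset.sum_congr rfl fun i _ => ?_
    rw [real_inner_smul_left, real_inner_smul_right, real_inner_comm a (v i)]
    ring
  have hn : Module.finrank ℝ E = d := by
    simp [E]
  let b := hT.eigenvectorBasis hn
  let V : Fin N → Fin d → ℝ := fun i j => ⟪b j, v i⟫_ℝ
  have hW : ∀ W : E, ∑ j, (⟪b j, W⟫_ℝ) ^ 2 = ‖W‖ ^ 2 := by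
    intro W
    have := b.sum_sq_norm_inner_right W
    simpa [Real.norm_eq_abs, sq_abs] using this
  have hV : ∀ i, ∑ j, (V i j) ^ 2 ≤ 1 := by
    intro i
    simp only [V]
    rw [hW]
    have := hv i
    have h1 := norm_nonneg (v i)
    nlinarith
  have hsg : sg V univ = 0 := by
    funext j
    simp only [sg, V, Pi.zero_apply]
    rw [← inner_sum, h0, inner_zero_right]
  have horth : ∀ j l, j ≠ l → Mx V univ j l = 0 := by
    intro j l hjl
    have h1 : Mx V univ j l = ⟪b j, T (b l)⟫_ℝ := by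
      rw [hTapp, inner_sum]
      refine Finset.sum_congr rfl fun i _ => ?_
      rw [real_inner_smul_right, real_inner_comm (b l) (v i)]
      simp only [V]
      ring
    rw [h1]
    have h2 : T (b l) = (hT.eigenvalues hn l : ℝ) • b l := hT.apply_eigenvectorBasis hn l
    rw [h2, real_inner_smul_right]
    have h3 : ⟪b j, b l⟫_ℝ = 0 := by
      have := b.orthonormal.2 hjl
      simpa using this
    rw [h3, mul_zero]
  obtain ⟨l, n, e, g⟩ := coord_main' (mkPr d) V hV hsg horth
  obtain ⟨π, hπ⟩ := perm_of_list v l n e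
  refine ⟨π, fun k hk => ?_⟩
  rw [hπ k hk]
  set W : E := ((l.take k).map v).sum with hWdef
  have hcoord : ∀ (m : List (Fin N)) (j : Fin d), (m.map V).sum j = ⟪b j, (m.map v).sum⟫_ℝ := by
    intro m j
    induction m with
    | nil => simp
    | cons a m ih =>
      simp only [List.map_cons, List.sum_cons, Pi.add_apply, inner_add_right, ih, V]
  have h1 := g k
  have h2 : sqs univ ((l.take k).map V).sum = ‖W‖ ^ 2 := by
    unfold sqs
    rw [← hW]
    refine Finset.sum_congr rfl fun j _ => ?_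
    rw [hcoord]
  rw [h2] at h1
  have h3 := final_bound' d hd
  have hdP : (0 : ℝ) ≤ (d : ℝ) * (nP d : ℝ) := by positivity
  have h4 : ‖W‖ ^ 2 ≤ (2300 * Real.sqrt ((d : ℝ) * (nP d : ℝ))) ^ 2 := by
    rw [mul_pow, Real.sq_sqrt hdP]
    nlinarith
  exact (pow_le_pow_iff_left₀ (norm_nonneg _) (by positivity) (by norm_num)).1 h4

/-- The Euclidean Steinitz constant is at most `2300 √(d (1 + log₂ d))`. -/
theorem steinitz_sqrtlog (d N : ℕ) (v : Fin N → EuclideanSpace ℝ (Fin d)) (hv : ∀ i, ‖v i‖ ≤ 1)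
    (h0 : ∑ i, v i = 0) :
    ∃ π : Equiv.Perm (Fin N), ∀ (k : ℕ) (hk : k ≤ N),
      ‖∑ i : Fin k, v (π (Fin.castLE hk i))‖ ≤
        2300 * Real.sqrt ((d : ℝ) * (Real.logb 2 d + 1)) := by
  obtain ⟨π, hπ⟩ := steinitz_sqrtlog' d N v hv h0
  refine ⟨π, fun k hk => (hπ k hk).trans ?_⟩
  have h1 : ((nP d : ℕ) : ℝ) ≤ Real.logb 2 d + 1 := by
    have h2 : ((Nat.log 2 d : ℕ) : ℝ) ≤ Real.logb ((2 : ℕ) : ℝ) d := Real.natLog_le_logb d 2
    have h3 : ((2 : ℕ) : ℝ) = 2 := by norm_num
    rw [h3] at h2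
    unfold nP
    push_cast
    linarith
  have hd0 : (0 : ℝ) ≤ d := Nat.cast_nonneg d
  refine mul_le_mul_of_nonneg_left (Real.sqrt_le_sqrt ?_) (by norm_num)
  exact mul_le_mul_of_nonneg_left h1 hd0

end Vale.Agent.Lib.P262C
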