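import Vale.Agent.Lib.P262C.Round

/-!
# The node of the halving tree: potentials and the tilt
-/

open Finset
open Vale.Agent.Lib.P262B

namespace Vale.Agent.Lib.P262C

set_option linter.unusedSectionVars false
set_option linter.unusedSimpArgs false
set_option linter.unusedVariables false

variable {ι : Type*} [Fintype ι] [DecidableEq ι] {d : ℕ}

/-! ## The step of the slack with the new constants -/

/-- The step inequality for the slack. -/
lemma xi_step' {A γ κ K η r rC a aC S SC q a₂ : ℝ} (hA : 0 ≤ A) (hγ : 0 ≤ γ) (hκ : 0 ≤ κ)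
    (hK : 0 ≤ K) (hr : 0 ≤ r) (hrC : 0 ≤ rC) (hrCr : rC ≤ r) (ha : 0 ≤ a) (haC : 0 ≤ aC)
    (haCa : aC ^ 2 ≤ 8 / 9 * a ^ 2) (hS : 0 ≤ S) (hSC : 0 ≤ SC) (hSCS : SC ≤ S / 2 + κ * a)
    (hq : 0 ≤ q) (hqa : q ≤ a) (hqr : q ≤ r) (ha₂ : 0 ≤ a₂) (ha₂a : a₂ ≤ a)
    (hγκ : κ + 1 / 2 ≤ γ * (1 / 20)) (hAκ : κ + 3 / 4 + K ≤ 1 / 9 * A) (hη : η ≤ 1 / 20) :
    Xi A γ rC aC SC ≤ Xi A γ r a S ∧
    Xi A γ rC aC SC + (1 / 2 * r * q + 1 / 4 * q ^ 2 + 1 / 2 * r * S - 1 / 4 * S ^ 2 + η * a₂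
      + K * a₂ ^ 2) ≤ Xi A γ r a S := by
  have hra : aC ≤ 19 / 20 * a := by
    by_contra hcon
    push Not at hcon
    nlinarith
  set m' := min (S / 2 + κ * a) (4 * r) with hm'
  have hm0 : 0 ≤ min SC (4 * rC) := le_min hSC (by linarith)
  have hm1 : min SC (4 * rC) ≤ m' :=
    le_min (le_trans (min_le_left _ _) hSCS) (le_trans (min_le_right _ _) (by linarith))
  have hT0 : rC * min SC (4 * rC) ≤ r * m' := mul_le_mul hrCr hm1 hm0 hr
  have hκra : 0 ≤ κ * r * a := by positivity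
  have hm2 : m' ≤ S / 2 + κ * a := min_le_left _ _
  have hm3 : m' ≤ 4 * r := min_le_right _ _
  have hT1 : r * m' ≤ r * min S (4 * r) + κ * r * a := by
    rcases le_total S (4 * r) with hle | hle
    · rw [min_eq_left hle]
      have h1 : r * m' ≤ r * (S / 2 + κ * a) := mul_le_mul_of_nonneg_left hm2 hr
      nlinarith [mul_nonneg hr hS]
    · rw [min_eq_right hle]
      have h1 : r * m' ≤ r * (4 * r) := mul_le_mul_of_nonneg_left hm3 hr
      linarith
  have hT2 : r * m' + (1 / 2 * r * S - 1 / 4 * S ^ 2) ≤ r * min S (4 * r) + κ * r * a := by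
    rcases le_total S (4 * r) with hle | hle
    · rw [min_eq_left hle]
      have h1 : r * m' ≤ r * (S / 2 + κ * a) := mul_le_mul_of_nonneg_left hm2 hr
      nlinarith [sq_nonneg S]
    · rw [min_eq_right hle]
      have h1 : r * m' ≤ r * (4 * r) := mul_le_mul_of_nonneg_left hm3 hr
      have h2 : 1 / 2 * r * S - 1 / 4 * S ^ 2 ≤ 0 := by
        nlinarith [mul_nonneg hS hr, mul_nonneg hS hS]
      linarith
  have hminC : min aC rC ≤ aC := min_le_left _ _
  have hminC' : min aC rC ≤ rC := min_le_right _ _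
  have hminC0 : 0 ≤ min aC rC := le_min haC hrC
  have hΓ : ∃ Γ : ℝ, γ * rC * min aC rC + Γ ≤ γ * r * min a r ∧ 0 ≤ Γ ∧
      (κ + 1 / 2) * (r * a) ≤ Γ + (κ + 1 / 2) * a ^ 2 := by
    rcases le_total r a with hle | hle
    · refine ⟨0, ?_, le_rfl, ?_⟩
      · rw [min_eq_right hle, add_zero]
        have h1 : rC * min aC rC ≤ r * r := mul_le_mul hrCr (hminC'.trans hrCr) hminC0 hr
        calc γ * rC * min aC rC = γ * (rC * min aC rC) := by ring
          _ ≤ γ * (r * r) := mul_le_mul_of_nonneg_left h1 hγ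
          _ = γ * r * r := by ring
      · have h1 : r * a ≤ a * a := mul_le_mul_of_nonneg_right hle ha
        have h2 : (κ + 1 / 2) * (r * a) ≤ (κ + 1 / 2) * (a * a) :=
          mul_le_mul_of_nonneg_left h1 (by linarith)
        nlinarith
    · refine ⟨γ * (1 / 20) * (r * a), ?_, by positivity, ?_⟩
      · rw [min_eq_left hle]
        have h1 : rC * min aC rC ≤ r * (19 / 20 * a) :=
          mul_le_mul hrCr (hminC.trans hra) hminC0 hr
        have h2 : γ * (rC * min aC rC) ≤ γ * (r * (19 / 20 * a)) :=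
          mul_le_mul_of_nonneg_left h1 hγ
        linarith
      · have h1 : (κ + 1 / 2) * (r * a) ≤ γ * (1 / 20) * (r * a) :=
          mul_le_mul_of_nonneg_right hγκ (by positivity)
        have h2 := mul_nonneg (by linarith : 0 ≤ κ + 1 / 2) (sq_nonneg a)
        linarith
  obtain ⟨Γ, hΓ1, hΓ0, hΓ2⟩ := hΓ
  have hAa : A * aC ^ 2 ≤ A * (8 / 9 * a ^ 2) := mul_le_mul_of_nonneg_left haCa hA
  have hpay : (κ + 3 / 4 + K) * a ^ 2 ≤ 1 / 9 * A * a ^ 2 :=
    mul_le_mul_of_nonneg_right hAκ (sq_nonneg a)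
  have hq1 : r * q ≤ r * a := mul_le_mul_of_nonneg_left hqa hr
  have hq2 : q ^ 2 ≤ a ^ 2 := pow_le_pow_left₀ hq hqa 2
  have ha₂2 : a₂ ^ 2 ≤ a ^ 2 := pow_le_pow_left₀ ha₂ ha₂a 2
  have hηa : η * a₂ ≤ 1 / 20 * a := by
    rcases le_total 0 η with h0 | h0
    · exact mul_le_mul hη ha₂a ha₂ (by norm_num)
    · have h1 : η * a₂ ≤ 0 := mul_nonpos_of_nonpos_of_nonneg h0 ha₂
      linarith
  have hKa : K * a₂ ^ 2 ≤ K * a ^ 2 := mul_le_mul_of_nonneg_left ha₂2 hK
  have hκa : 0 ≤ κ * a ^ 2 := by positivity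
  have hKa0 : 0 ≤ K * a ^ 2 := by positivity
  have ha2 : 0 ≤ a ^ 2 := sq_nonneg a
  have hra0 : 0 ≤ r * a := by positivity
  constructor
  · unfold Xi
    linarith
  · unfold Xi
    linarith

/-- Contraction of the mass outside the top element. -/
lemma low_contract' {p₂ E EC ε : ℝ} (hp : 0 ≤ p₂) (hE : 0 ≤ E) (hε : 0 ≤ ε) (hε1 : ε ≤ 1 / 100)
    (h1 : EC ≤ E) (h2 : EC ≤ E / 2 + ε * Real.sqrt (p₂ * E) + 3 * p₂) :
    EC ≤ 8 / 9 * (p₂ + E) := by
  rcases le_total E (8 * p₂) with hle | hle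
  · linarith
  · have hs : Real.sqrt (p₂ * E) ≤ E / 2 := by
      refine Real.sqrt_le_iff.2 ⟨by linarith, ?_⟩
      nlinarith
    have h3 : ε * Real.sqrt (p₂ * E) ≤ 1 / 100 * (E / 2) :=
      mul_le_mul hε1 hs (Real.sqrt_nonneg _) (by norm_num)
    linarith

/-! ## The concave potential of the band -/

/-- The potential of one coordinate. -/
noncomputable def psi (μ : ℝ) : ℝ := if μ ≤ 64 then 42500 * (μ / 64) else 42500 * (1 + Real.log (μ / 64))

/-- A supergradient of the potential. -/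
noncomputable def kap (y : ℝ) : ℝ := if y ≤ 64 then 42500 / 64 else 42500 / y

lemma psi_nonneg {μ : ℝ} (h : 0 ≤ μ) : 0 ≤ psi μ := by
  unfold psi
  split_ifs with h1
  · positivity
  · push Not at h1
    have h2 : 0 ≤ Real.log (μ / 64) := Real.log_nonneg (by rw [le_div_iff₀ (by norm_num)]; linarith)
    positivity

lemma psi_mono {x y : ℝ} (hx : 0 ≤ x) (hxy : x ≤ y) : psi x ≤ psi y := by
  unfold psi
  by_cases h1 : x ≤ 64
  · by_cases h2 : y ≤ 64
    · simp only [h1, h2, if_true]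
      nlinarith
    · push Not at h2
      simp only [h1, if_true, not_le.2 h2, if_false]
      have h3 : 0 ≤ Real.log (y / 64) :=
        Real.log_nonneg (by rw [le_div_iff₀ (by norm_num)]; linarith)
      nlinarith
  · push Not at h1
    have h2 : 64 < y := by linarith
    simp only [not_le.2 h1, not_le.2 h2, if_false]
    have h3 : Real.log (x / 64) ≤ Real.log (y / 64) :=
      Real.log_le_log (by positivity) (by nlinarith)
    nlinarith

lemma psi_tangent {x y : ℝ} (hx : 0 ≤ x) (hy : 0 < y) : psi x ≤ psi y + kap y * (x - y) := by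
  unfold psi kap
  by_cases h2 : y ≤ 64
  · simp only [h2, if_true]
    by_cases h1 : x ≤ 64
    · simp only [h1, if_true]
      apply le_of_eq
      ring
    · push Not at h1
      simp only [not_le.2 h1, if_false]
      have h3 : Real.log (x / 64) ≤ x / 64 - 1 := Real.log_le_sub_one_of_pos (by positivity)
      nlinarith
  · push Not at h2
    simp only [not_le.2 h2, if_false]
    by_cases h1 : x ≤ 64
    · simp only [h1, if_true]
      have hu : 1 < y / 64 := by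
        rw [lt_div_iff₀ (by norm_num)]
        linarith
      have h3 := Real.one_sub_inv_le_log_of_pos (by linarith : 0 < y / 64)
      have h4 : (y / 64)⁻¹ = 64 / y := by
        field_simp
      rw [h4] at h3
      have h5 : 0 ≤ x / 64 := by positivity
      have h6 : x / 64 ≤ 1 := by
        rw [div_le_one (by norm_num)]
        exact h1
      have h7 : 0 ≤ 1 - 64 / y := by
        have : 64 / y ≤ 1 := by
          rw [div_le_one hy]
          linarith
        linarith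
      have h8 : x / 64 * (1 - 64 / y) ≤ Real.log (y / 64) := by
        calc x / 64 * (1 - 64 / y) ≤ 1 * (1 - 64 / y) := mul_le_mul_of_nonneg_right h6 h7
          _ ≤ _ := by linarith
      have h9 : 42500 / y * (x - y) = 42500 * (x / y) - 42500 := by
        field_simp
      have h10 : x / 64 * (1 - 64 / y) = x / 64 - x / y := by
        field_simp
      rw [h9]
      rw [h10] at h8
      nlinarith
    · push Not at h1
      simp only [not_le.2 h1, if_false]
      have hx0 : 0 < x := by linarith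
      have h3 : Real.log (x / y) ≤ x / y - 1 := Real.log_le_sub_one_of_pos (by positivity)
      have h4 : Real.log (x / 64) = Real.log (x / y) + Real.log (y / 64) := by
        rw [← Real.log_mul (by positivity) (by positivity)]
        congr 1
        field_simp
      have h9 : 42500 / y * (x - y) = 42500 * (x / y) - 42500 := by
        field_simp
      rw [h9, h4]
      nlinarith

lemma psi_drop {μ : ℝ} (h : 64 ≤ μ) : psi (μ / 2) + 21250 ≤ psi μ := by
  unfold psi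
  by_cases h1 : μ / 2 ≤ 64
  · simp only [h1, if_true]
    by_cases h2 : μ ≤ 64
    · have h3 : μ = 64 := le_antisymm h2 h
      subst h3
      norm_num
    · push Not at h2
      simp only [not_le.2 h2, if_false]
      have hu : 0 < μ / 64 := by positivity
      have h3 := Real.one_sub_inv_le_log_of_pos hu
      have hu1 : 1 ≤ μ / 64 := by
        rw [le_div_iff₀ (by norm_num)]
        linarith
      have hu2 : μ / 64 ≤ 2 := by
        rw [div_le_iff₀ (by norm_num)]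
        linarith
      have h6 : (μ / 64)⁻¹ ≤ 3 / 2 - μ / 64 / 2 := by
        rw [inv_eq_one_div, div_le_iff₀ hu]
        nlinarith
      have h7 : μ / 2 / 64 = μ / 64 / 2 := by ring
      rw [h7]
      nlinarith
  · push Not at h1
    have h2 : 64 < μ := by linarith
    simp only [not_le.2 h1, not_le.2 h2, if_false]
    have h3 : Real.log (μ / 64) = Real.log (μ / 2 / 64) + Real.log 2 := by
      rw [← Real.log_mul (by positivity) (by norm_num)]
      congr 1
      ring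
    have h4 := Real.log_two_gt_d9
    rw [h3]
    nlinarith

lemma kap_nonneg {y : ℝ} (hy : 0 ≤ y) : 0 ≤ kap y := by
  unfold kap
  split_ifs <;> positivity

lemma kap_le {y : ℝ} (hy : 0 < y) : kap y ≤ 42500 / 64 := by
  unfold kap
  split_ifs with h1
  · exact le_rfl
  · push Not at h1
    exact div_le_div_of_nonneg_left (by norm_num) (by norm_num) h1.le

lemma kap_mul {μ : ℝ} (hμ : 0 < μ) : kap (μ / 2) * μ ≤ 85000 := by
  unfold kap
  split_ifs with h1
  · nlinarith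
  · apply le_of_eq
    field_simp
    norm_num

/-! ## Parameters -/

/-- All parameters of the construction. -/
structure Pr (d : ℕ) where
  c : ℝ
  Lp : ℝ
  ε : ℝ
  Δ : ℝ
  B : ℝ
  J₁ : ℝ
  hLp1 : 16 * ((d : ℝ) ^ 2 + d + 4) ≤ Lp
  hLp2 : 100 ≤ Lp
  hcLp : Lp ≤ c
  hε0 : 0 ≤ ε
  hε1 : ε ≤ 1 / 100
  hB0 : 0 ≤ B
  hsteer : (d : ℝ) * (4 * (Real.sqrt B + 1) ^ 2 / c) ≤ ε ^ 2
  hτ : (d : ℝ) * (2 * (Δ + 2) / c + 2 * (25 * ε) / Real.sqrt c) ≤ 1 / 2
  hΔ : 2 * ((d : ℝ) ^ 2 + d + 3) + 2 ≤ Δ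
  hdU : ε * Real.sqrt (5 / 2 * Lp) ≤ 1 / (2 * (Real.sqrt B + 1))
  hdT : (d : ℝ) * (4 * (Real.sqrt B + 1) / c * (Δ + 2 + 25 * ε * Real.sqrt (5 / 2 * c)))
    ≤ 1 / (2 * (Real.sqrt B + 1))
  hη : 2 * (Real.sqrt B + 1) * ε ≤ 1 / 20
  htr : 120 * (Real.sqrt B + 1) * (d : ℝ) ≤ c
  hψ : psi (5 / 2 * c) + 67462 ≤ J₁
  hB : (J₁ + 8464) * ((d : ℝ) + 1) ≤ B

namespace Pr

variable (p : Pr d)

/-- The a priori bound on coordinates. -/
noncomputable def b : ℝ := Real.sqrt p.B + 1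

lemma b_pos : 0 < p.b := by
  unfold b
  have := Real.sqrt_nonneg p.B
  linarith

lemma one_le_b : 1 ≤ p.b := by
  unfold b
  have := Real.sqrt_nonneg p.B
  linarith

lemma Lp_pos : 0 < p.Lp := by
  have := p.hLp2
  linarith

lemma c_pos : 0 < p.c := lt_of_lt_of_le p.Lp_pos p.hcLp

lemma c_ge : 100 ≤ p.c := le_trans p.hLp2 p.hcLp

lemma Δ_nonneg : 0 ≤ p.Δ := by
  have := p.hΔ
  have h1 : (0 : ℝ) ≤ (d : ℝ) ^ 2 + d + 3 := by positivity
  linarith

lemma J_nonneg : 0 ≤ p.J₁ := by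
  have h1 := p.hψ
  have h2 := psi_nonneg (by have := p.c_pos; positivity : 0 ≤ 5 / 2 * p.c)
  linarith

lemma ε_half : p.ε ≤ 1 / 2 := by
  have := p.hε1
  linarith

end Pr

variable (p : Pr d) (v : ι → Fin d → ℝ) (ν : Fin d → ℝ)

/-- A coordinate is tracked at depth `ℓ` when its nominal energy is at least `Lp`. -/
def Trk (ℓ : ℕ) (j : Fin d) : Prop := (2 : ℝ) ^ ℓ * p.Lp ≤ ν j

/-- The coordinates which are not rich at depth `s`. -/
noncomputable def Ts (s : ℕ) : Finset (Fin d) := univ.filter fun j => ν j < (2 : ℝ) ^ (s + 1) * p.c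

/-- One term of the sum which controls the tilts along a path. -/
noncomputable def tauk (ℓ : ℕ) (k : Fin d) : ℝ := min ((2 : ℝ) ^ ℓ / ν k) (1 / p.c)

/-- The sum which controls the tilts along a path. -/
noncomputable def tau (ℓ : ℕ) : ℝ := ∑ k, tauk p ν ℓ k

/-- The weak rank of a coordinate outside `L`. -/
noncomputable def wtf (L : Finset (Fin d)) (j : Fin d) : ℕ :=
  (univ.filter fun l => l ∉ L ∧ ν l ≤ ν j).card

/-- The coordinates of low energy. -/
noncomputable abbrev Lo (G : Finset ι) : Finset (Fin d) := Low v 64 G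

/-- The slack of a node. -/
noncomputable def XiQ (L : Finset (Fin d)) (G : Finset ι) (h : ι) : ℝ :=
  Xi 1050 250 (Real.sqrt (pm v L h)) (Real.sqrt (Ep v L G h)) (Sp v L G h)

/-- The potential of a node. -/
noncomputable def Potl (ℓ : ℕ) (L : Finset (Fin d)) (G : Finset ι) (h : ι) : ℝ :=
  XiQ v L G h + ∑ j ∈ Ts p ν ℓ \ L, (psi (mu v G j) + 67462)
    + p.J₁ * ((d : ℝ) - ((Ts p ν ℓ).card : ℝ))

/-- The bound at an end of a node, for all the later sets of poor coordinates. -/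
def EndQ (ℓ : ℕ) (L : Finset (Fin d)) (G : Finset ι) (h : ι) (z : Fin d → ℝ) : Prop :=
  ∀ s, ℓ ≤ s → sqs (Ts p ν s) z + 8464 * ((d : ℝ) - ((Ts p ν s).card : ℝ)) + Potl p v ν ℓ L G h
    ≤ p.B

/-- Mixed moments are small on tracked coordinates. -/
def OInv (ℓ : ℕ) (G : Finset ι) : Prop :=
  ∀ j l, j ≠ l → Trk p ν ℓ j → Trk p ν ℓ l →
    |Mx v G j l| ≤ p.Δ + 25 * p.ε * Real.sqrt (mu v G l)

/-- Energies of tracked coordinates follow the nominal energies. -/
def TInv (ℓ : ℕ) (G : Finset ι) : Prop :=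
  ∀ j, Trk p ν ℓ j → |(2 : ℝ) ^ ℓ * mu v G j - ν j| ≤
    (2 : ℝ) ^ (ℓ + 1) * ((d : ℝ) ^ 2 + d + 4)
      + 15 * p.b * ν j * (tau p ν ℓ - tau p ν 0)

/-- Energies of the other coordinates are moderate. -/
def UInv (ℓ : ℕ) (G : Finset ι) : Prop :=
  ∀ j, ¬ Trk p ν ℓ j → mu v G j ≤ 5 / 2 * p.Lp

/-- The node invariant. -/
structure NodeInv (ℓ : ℕ) (G : Finset ι) (x y : Fin d → ℝ) : Prop where
  hy : y = x + sg v G
  orth : OInv p v ν ℓ G
  track : TInv p v ν ℓ G
  unt : UInv p v ν ℓ G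
  pot : ∃ h, Top v (Lo v G) G h ∧ EndQ p v ν ℓ (Lo v G) G h x ∧ EndQ p v ν ℓ (Lo v G) G h y

variable {p v ν}

lemma tauk_nonneg (hν : ∀ j, 0 ≤ ν j) (ℓ : ℕ) (k : Fin d) : 0 ≤ tauk p ν ℓ k := by
  unfold tauk
  have h1 := p.c_pos
  have h2 := hν k
  exact le_min (by positivity) (by positivity)

lemma tauk_le (ℓ : ℕ) (k : Fin d) : tauk p ν ℓ k ≤ 1 / p.c := min_le_right _ _

lemma tauk_mono (hν : ∀ j, 0 ≤ ν j) (ℓ : ℕ) (k : Fin d) : tauk p ν ℓ k ≤ tauk p ν (ℓ + 1) k := by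
  unfold tauk
  refine min_le_min_right _ ?_
  refine div_le_div_of_nonneg_right ?_ (hν k)
  rw [pow_succ]
  have : (0 : ℝ) < 2 ^ ℓ := by positivity
  linarith

lemma tauk_rich {ℓ : ℕ} {k : Fin d} (hk : (2 : ℝ) ^ (ℓ + 1) * p.c ≤ ν k) :
    tauk p ν (ℓ + 1) k - tauk p ν ℓ k = (2 : ℝ) ^ ℓ / ν k := by
  have hc := p.c_pos
  have h0 : 0 < (2 : ℝ) ^ (ℓ + 1) := by positivity
  have hν : 0 < ν k := lt_of_lt_of_le (by positivity) hk
  have h1 : (2 : ℝ) ^ (ℓ + 1) / ν k ≤ 1 / p.c := by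
    rw [div_le_div_iff₀ hν hc]
    linarith
  have h2 : (2 : ℝ) ^ ℓ / ν k ≤ 1 / p.c := by
    refine le_trans ?_ h1
    refine div_le_div_of_nonneg_right ?_ hν.le
    rw [pow_succ]
    have : (0 : ℝ) < 2 ^ ℓ := by positivity
    linarith
  unfold tauk
  rw [min_eq_left h1, min_eq_left h2, pow_succ]
  field_simp
  ring

lemma tau_nonneg (hν : ∀ j, 0 ≤ ν j) (ℓ : ℕ) : 0 ≤ tau p ν ℓ :=
  Finset.sum_nonneg fun k _ => tauk_nonneg hν ℓ k

lemma tau_le (ℓ : ℕ) : tau p ν ℓ ≤ (d : ℝ) / p.c := by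
  unfold tau
  calc ∑ k, tauk p ν ℓ k ≤ ∑ _k : Fin d, 1 / p.c := Finset.sum_le_sum fun k _ => tauk_le ℓ k
    _ = (d : ℝ) / p.c := by
        simp
        ring

/-- Bounds for the energy of a tracked coordinate. -/
lemma track_bounds (hν : ∀ j, 0 ≤ ν j) {ℓ : ℕ} {G : Finset ι} (htr : TInv p v ν ℓ G) {j : Fin d}
    (hj : Trk p ν ℓ j) :
    3 / 4 * ν j ≤ (2 : ℝ) ^ ℓ * mu v G j ∧ (2 : ℝ) ^ ℓ * mu v G j ≤ 5 / 4 * ν j := by
  have h1 := htr j hj
  have hν0 := hν j
  have hpow : (0 : ℝ) < 2 ^ ℓ := by positivity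
  have h2 : (2 : ℝ) ^ (ℓ + 1) * ((d : ℝ) ^ 2 + d + 4) ≤ 1 / 8 * ν j := by
    have h3 := p.hLp1
    have h4 : (2 : ℝ) ^ ℓ * (16 * ((d : ℝ) ^ 2 + d + 4)) ≤ (2 : ℝ) ^ ℓ * p.Lp :=
      mul_le_mul_of_nonneg_left h3 hpow.le
    have h5 : (2 : ℝ) ^ ℓ * p.Lp ≤ ν j := hj
    rw [pow_succ]
    nlinarith
  have h3 : 15 * p.b * ν j * (tau p ν ℓ - tau p ν 0) ≤ 1 / 8 * ν j := by
    have h4 := tau_le (p := p) (ν := ν) ℓ
    have h5 := tau_nonneg (p := p) hν 0
    have hc := p.c_pos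
    have h6 := p.htr
    have h7 : 15 * p.b * (tau p ν ℓ - tau p ν 0) ≤ 1 / 8 := by
      have h8 : tau p ν ℓ - tau p ν 0 ≤ (d : ℝ) / p.c := by linarith
      have h9 := p.b_pos
      have h10 : 15 * p.b * (tau p ν ℓ - tau p ν 0) ≤ 15 * p.b * ((d : ℝ) / p.c) :=
        mul_le_mul_of_nonneg_left h8 (by positivity)
      have h11 : 15 * p.b * ((d : ℝ) / p.c) ≤ 1 / 8 := by
        have h12 : 15 * p.b * ((d : ℝ) / p.c) = (15 * p.b * (d : ℝ)) / p.c := by ring
        rw [h12, div_le_iff₀ hc]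
        have h13 : p.b = Real.sqrt p.B + 1 := rfl
        rw [h13]
        nlinarith
      linarith
    have h14 := mul_le_mul_of_nonneg_right h7 hν0
    nlinarith
  have h4 := abs_le.1 h1
  constructor <;> nlinarith [h4.1, h4.2]

/-- Energies of rich coordinates are large. -/
lemma rich_trk {ℓ : ℕ} {k : Fin d} (hk : k ∉ Ts p ν ℓ) : Trk p ν ℓ k := by
  have h1 : (2 : ℝ) ^ (ℓ + 1) * p.c ≤ ν k := by
    simpa [Ts] using hk
  unfold Trk
  have hpow : (0 : ℝ) < 2 ^ ℓ := by positivity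
  have h2 := p.hcLp
  have h3 := p.c_pos
  rw [pow_succ] at h1
  nlinarith

lemma rich_mu (hν : ∀ j, 0 ≤ ν j) {ℓ : ℕ} {G : Finset ι} (htr : TInv p v ν ℓ G) {k : Fin d}
    (hk : k ∉ Ts p ν ℓ) : p.c ≤ mu v G k ∧ 3 / 4 * ν k ≤ (2 : ℝ) ^ ℓ * mu v G k := by
  have h1 : (2 : ℝ) ^ (ℓ + 1) * p.c ≤ ν k := by
    simpa [Ts] using hk
  have h2 := (track_bounds hν htr (rich_trk hk)).1
  refine ⟨?_, h2⟩
  have hpow : (0 : ℝ) < 2 ^ ℓ := by positivity
  have hc := p.c_pos
  rw [pow_succ] at h1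
  have h3 : (2 : ℝ) ^ ℓ * p.c ≤ (2 : ℝ) ^ ℓ * mu v G k := by nlinarith
  exact le_of_mul_le_mul_left h3 hpow

lemma low_sub_T (hν : ∀ j, 0 ≤ ν j) {ℓ : ℕ} {G : Finset ι} (htr : TInv p v ν ℓ G) :
    Lo v G ⊆ Ts p ν ℓ := by
  intro j hj
  by_contra hn
  have h1 := (rich_mu hν htr hn).1
  have h2 : mu v G j < 64 := by
    simpa [Low] using hj
  have h3 := p.c_ge
  linarith

/-- Energies of poor coordinates are moderate. -/
lemma poor_mu (hν : ∀ j, 0 ≤ ν j) {ℓ : ℕ} {G : Finset ι} (htr : TInv p v ν ℓ G)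
    (hun : UInv p v ν ℓ G) {j : Fin d} (hj : j ∈ Ts p ν ℓ) : mu v G j ≤ 5 / 2 * p.c := by
  by_cases ht : Trk p ν ℓ j
  · have h1 := (track_bounds hν htr ht).2
    have h2 : ν j < (2 : ℝ) ^ (ℓ + 1) * p.c := by
      simpa [Ts] using hj
    have hpow : (0 : ℝ) < 2 ^ ℓ := by positivity
    rw [pow_succ] at h2
    have h3 : (2 : ℝ) ^ ℓ * mu v G j ≤ (2 : ℝ) ^ ℓ * (5 / 2 * p.c) := by nlinarith
    exact le_of_mul_le_mul_left h3 hpow
  · have h1 := hun j ht
    have h2 := p.hcLp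
    linarith

/-- Weak ranks inside a set of poor coordinates. -/
lemma wtf_le (L : Finset (Fin d)) (s : ℕ) :
    ∀ j ∈ Ts p ν s \ L, wtf ν L j ≤ (Ts p ν s \ L).card := by
  intro j hj
  refine Finset.card_le_card ?_
  intro l hl
  simp only [Finset.mem_filter, Finset.mem_univ, true_and] at hl
  have h1 := (Finset.mem_sdiff.1 hj).1
  have h2 : ν j < (2 : ℝ) ^ (s + 1) * p.c := by
    simpa [Ts] using h1
  refine Finset.mem_sdiff.2 ⟨?_, hl.1⟩
  simp only [Ts, Finset.mem_filter, Finset.mem_univ, true_and]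
  linarith [hl.2]

/-- Few coordinates have small weak rank. -/
lemma wtf_card (L : Finset (Fin d)) (a : ℕ) : 32 * (Zf L (wtf ν L) a).card ≤ a := by
  classical
  by_cases hne : (Zf L (wtf ν L) a).Nonempty
  · obtain ⟨j, hj, hmax⟩ := Finset.exists_max_image _ ν hne
    have h1 : (Zf L (wtf ν L) a).card ≤ wtf ν L j := by
      refine Finset.card_le_card ?_
      intro l hl
      simp only [Zf, Finset.mem_filter, Finset.mem_univ, true_and] at hl ⊢
      exact ⟨hl.1, hmax l (by simp [Zf, hl.1, hl.2])⟩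
    have h2 : 32 * wtf ν L j ≤ a := by
      simp only [Zf, Finset.mem_filter, Finset.mem_univ, true_and] at hj
      exact hj.2
    omega
  · rw [Finset.not_nonempty_iff_eq_empty] at hne
    simp [hne]

end Vale.Agent.Lib.P262C
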