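import Vale.Agent.Lib.P262C.Tree

/-!
# The choice of parameters
-/

open Finset
open Vale.Agent.Lib.P262B

namespace Vale.Agent.Lib.P262C

set_option linter.unusedSectionVars false
set_option linter.unusedSimpArgs false
set_option linter.unusedVariables false

/-- The power of two above the dimension. -/
noncomputable def xX (d : ℕ) : ℝ := (2 : ℝ) ^ nP d

/-- The threshold for rich coordinates. -/
noncomputable def cC (d : ℕ) : ℝ := 2 ^ 70 * (xX d) ^ 8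

/-- The entry cost of a coordinate. -/
noncomputable def jJ (d : ℕ) : ℝ := psi (5 / 2 * cC d) + 67462

/-- The bound on the squared length. -/
noncomputable def bB (d : ℕ) : ℝ := (jJ d + 8464) * ((d : ℝ) + 1)

/-- The a priori bound for coordinates. -/
noncomputable def bb (d : ℕ) : ℝ := Real.sqrt (bB d) + 1

/-- The tolerance. -/
noncomputable def eE (d : ℕ) : ℝ := 1 / (400 * bb d * xX d)

lemma xX_ge (d : ℕ) : 1 ≤ xX d := one_le_pow₀ (by norm_num)

lemma xX_d (d : ℕ) : (d : ℝ) + 1 ≤ xX d := by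
  have h1 : d + 1 ≤ 2 ^ nP d := d_lt d
  unfold xX
  exact_mod_cast h1

lemma xX_P (d : ℕ) : (nP d : ℝ) ≤ xX d := by
  have : nP d < 2 ^ nP d := Nat.lt_two_pow_self
  unfold xX
  exact_mod_cast this.le

lemma cC_pos (d : ℕ) : 0 < cC d := by
  have := xX_ge d
  unfold cC
  positivity

lemma jJ_nonneg (d : ℕ) : 0 ≤ jJ d := by
  have h1 := cC_pos d
  have h2 := psi_nonneg (by positivity : 0 ≤ 5 / 2 * cC d)
  unfold jJ
  linarith

lemma bB_nonneg (d : ℕ) : 0 ≤ bB d := by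
  have h1 := jJ_nonneg d
  unfold bB
  positivity

lemma bb_ge (d : ℕ) : 1 ≤ bb d := by
  have := Real.sqrt_nonneg (bB d)
  unfold bb
  linarith

/-- The entry cost grows like the logarithm of the dimension. -/
lemma jJ_le (d : ℕ) : jJ d + 8464 ≤ 2500000 * (nP d : ℝ) := by
  have hX := xX_ge d
  have hP1 := nP_ge d
  have hc : (2 : ℝ) ^ 70 ≤ cC d := by
    unfold cC
    have h1 : (1 : ℝ) ≤ (xX d) ^ 8 := one_le_pow₀ hX
    have h2 : (0 : ℝ) < 2 ^ 70 := by positivity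
    nlinarith
  have hcpos := cC_pos d
  have hbig : ¬ (5 / 2 * cC d ≤ 64) := by
    push Not
    have h1 : (64 : ℝ) ≤ 2 ^ 70 := by norm_num
    linarith
  have hlog : Real.log (5 / 2 * cC d / 64) ≤ 70 * Real.log 2 + 8 * ((nP d : ℝ) * Real.log 2) := by
    have h1 : Real.log (5 / 2 * cC d / 64) ≤ Real.log (cC d) :=
      Real.log_le_log (by positivity) (by linarith)
    have h2 : Real.log (cC d) = 70 * Real.log 2 + 8 * ((nP d : ℝ) * Real.log 2) := by
      unfold cC xX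
      rw [Real.log_mul (by positivity) (by positivity), Real.log_pow, Real.log_pow, Real.log_pow]
      norm_num
    linarith
  have hl2 := Real.log_two_lt_d9
  have hl0 : 0 < Real.log 2 := Real.log_pos (by norm_num)
  have h3 : (nP d : ℝ) * Real.log 2 ≤ (nP d : ℝ) * 0.6931471808 :=
    mul_le_mul_of_nonneg_left hl2.le (by linarith)
  have h4 : psi (5 / 2 * cC d) = 42500 * (1 + Real.log (5 / 2 * cC d / 64)) := by
    unfold psi
    simp only [hbig, if_false]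
  unfold jJ
  rw [h4]
  nlinarith

lemma bB_le (d : ℕ) : bB d ≤ (1582 * xX d) ^ 2 := by
  have h1 := jJ_le d
  have h2 := xX_d d
  have h3 := xX_P d
  have hd0 : (0 : ℝ) ≤ d := Nat.cast_nonneg d
  have hP1 := nP_ge d
  have hX := xX_ge d
  have h4 := jJ_nonneg d
  have h5 : (jJ d + 8464) * ((d : ℝ) + 1) ≤ (2500000 * (nP d : ℝ)) * xX d :=
    mul_le_mul h1 h2 (by linarith) (by positivity)
  have h6 : (2500000 * (nP d : ℝ)) * xX d ≤ (2500000 * xX d) * xX d := by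
    gcongr
  have h7 : (2500000 * xX d) * xX d ≤ (1582 * xX d) ^ 2 := by
    nlinarith [sq_nonneg (xX d)]
  unfold bB
  linarith

lemma bb_le (d : ℕ) : bb d ≤ 1600 * xX d := by
  have hX := xX_ge d
  have h1 : Real.sqrt (bB d) ≤ 1582 * xX d :=
    Real.sqrt_le_iff.2 ⟨by positivity, bB_le d⟩
  unfold bb
  linarith

section conds

variable {d : ℝ} {X b c ε : ℝ}

lemma pow_le_pow8 (hX : 1 ≤ X) {n : ℕ} (hn : n ≤ 8) : X ^ n ≤ X ^ 8 :=
  pow_le_pow_right₀ hX hn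

/-- The steering condition. -/
lemma cond_steer (hd0 : 0 ≤ d) (hd : d ≤ X) (hX : 1 ≤ X) (hb1 : 1 ≤ b) (hb : b ≤ 1600 * X)
    (hc : c = 2 ^ 70 * X ^ 8) (hε : ε = 1 / (400 * b * X)) :
    d * (4 * b ^ 2 / c) ≤ ε ^ 2 := by
  have hX0 : 0 < X := by linarith
  have hb0 : 0 < b := by linarith
  have hc0 : 0 < c := by
    rw [hc]
    positivity
  have h1 : d * (4 * b ^ 2 / c) = (d * (4 * b ^ 2)) / c := by ring
  have h2 : ε ^ 2 = 1 / (160000 * b ^ 2 * X ^ 2) := by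
    rw [hε]
    field_simp
    ring
  rw [h1, h2, div_le_div_iff₀ hc0 (by positivity), one_mul]
  have h3 : d * (4 * b ^ 2) * (160000 * b ^ 2 * X ^ 2)
      ≤ X * (4 * (1600 * X) ^ 2) * (160000 * (1600 * X) ^ 2 * X ^ 2) := by
    gcongr
  have h4 : X * (4 * (1600 * X) ^ 2) * (160000 * (1600 * X) ^ 2 * X ^ 2)
      = 4194304000000000000 * X ^ 7 := by ring
  have h5 : X ^ 7 ≤ X ^ 8 := pow_le_pow8 hX (by norm_num)
  have h6 : (0 : ℝ) ≤ X ^ 8 := by positivity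
  rw [hc]
  have h7 : (4194304000000000000 : ℝ) ≤ 2 ^ 70 := by norm_num
  nlinarith

/-- Dominance of the diagonal. -/
lemma cond_dom (hd0 : 0 ≤ d) (hd : d ≤ X) (hX : 1 ≤ X) (hb1 : 1 ≤ b)
    (hc : c = 2 ^ 70 * X ^ 8) (hε0 : 0 ≤ ε) (hε : ε ≤ 1 / 400) :
    d * (2 * (8 * X ^ 2 + 2) / c + 2 * (25 * ε) / Real.sqrt c) ≤ 1 / 2 := by
  have hX0 : 0 < X := by linarith
  have hc0 : 0 < c := by
    rw [hc]
    positivity
  have hs : Real.sqrt c = 2 ^ 35 * X ^ 4 := by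
    have h1 : c = (2 ^ 35 * X ^ 4) ^ 2 := by
      rw [hc]
      ring
    rw [h1]
    exact Real.sqrt_sq (by positivity)
  have hA : d * (2 * (8 * X ^ 2 + 2) / c) ≤ 1 / 4 := by
    have h1 : d * (2 * (8 * X ^ 2 + 2) / c) = (d * (2 * (8 * X ^ 2 + 2))) / c := by ring
    rw [h1, div_le_iff₀ hc0]
    have h2 : d * (2 * (8 * X ^ 2 + 2)) ≤ X * (2 * (8 * X ^ 2 + 2)) :=
      mul_le_mul_of_nonneg_right hd (by positivity)
    have h3 : (1 : ℝ) ≤ X ^ 2 := one_le_pow₀ hX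
    have h4 : X * (2 * (8 * X ^ 2 + 2)) ≤ X * (20 * X ^ 2) :=
      mul_le_mul_of_nonneg_left (by linarith) hX0.le
    have h5 : X * (20 * X ^ 2) = 20 * X ^ 3 := by ring
    have h6 : X ^ 3 ≤ X ^ 8 := pow_le_pow8 hX (by norm_num)
    rw [hc]
    have h7 : (0 : ℝ) ≤ X ^ 8 := by positivity
    have h8 : (80 : ℝ) ≤ 2 ^ 70 := by norm_num
    nlinarith
  have hB : d * (2 * (25 * ε) / Real.sqrt c) ≤ 1 / 4 := by
    rw [hs]
    have h1 : d * (2 * (25 * ε) / (2 ^ 35 * X ^ 4)) = (d * (2 * (25 * ε))) / (2 ^ 35 * X ^ 4) := by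
      ring
    rw [h1, div_le_iff₀ (by positivity)]
    have h2 : d * (2 * (25 * ε)) ≤ X * (2 * (25 * (1 / 400))) := by
      gcongr
    have h3 : X ≤ X ^ 4 := le_self_pow₀ hX (by norm_num)
    have h4 : (0 : ℝ) ≤ X ^ 4 := by positivity
    have h5 : (1 : ℝ) ≤ 2 ^ 35 := by norm_num
    nlinarith
  calc _ = d * (2 * (8 * X ^ 2 + 2) / c) + d * (2 * (25 * ε) / Real.sqrt c) := by ring
    _ ≤ 1 / 2 := by linarith

/-- The bound for the drift of untracked coordinates. -/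
lemma cond_dU (hX : 1 ≤ X) (hb1 : 1 ≤ b) (hε : ε = 1 / (400 * b * X)) :
    ε * Real.sqrt (5 / 2 * (100 * X ^ 2)) ≤ 1 / (2 * b) := by
  have hX0 : 0 < X := by linarith
  have hb0 : 0 < b := by linarith
  have hs : Real.sqrt (5 / 2 * (100 * X ^ 2)) ≤ 16 * X := by
    refine Real.sqrt_le_iff.2 ⟨by positivity, ?_⟩
    nlinarith [sq_nonneg X]
  have hε0 : 0 ≤ ε := by
    rw [hε]
    positivity
  calc ε * Real.sqrt (5 / 2 * (100 * X ^ 2)) ≤ ε * (16 * X) :=
        mul_le_mul_of_nonneg_left hs hε0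
    _ = 1 / (25 * b) := by
        rw [hε]
        field_simp
        norm_num
    _ ≤ 1 / (2 * b) := by
        refine one_div_le_one_div_of_le (by positivity) ?_
        linarith

/-- The bound for the drift of tracked coordinates. -/
lemma cond_dT (hd0 : 0 ≤ d) (hd : d ≤ X) (hX : 1 ≤ X) (hb1 : 1 ≤ b) (hb : b ≤ 1600 * X)
    (hc : c = 2 ^ 70 * X ^ 8) (hε : ε = 1 / (400 * b * X)) :
    d * (4 * b / c * (8 * X ^ 2 + 2 + 25 * ε * Real.sqrt (5 / 2 * c))) ≤ 1 / (2 * b) := by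
  have hX0 : 0 < X := by linarith
  have hb0 : 0 < b := by linarith
  have hc0 : 0 < c := by
    rw [hc]
    positivity
  have hε0 : 0 ≤ ε := by
    rw [hε]
    positivity
  have hs : Real.sqrt (5 / 2 * c) ≤ 2 ^ 36 * X ^ 4 := by
    refine Real.sqrt_le_iff.2 ⟨by positivity, ?_⟩
    rw [hc]
    have h1 : (2 ^ 36 * X ^ 4) ^ 2 = (2 : ℝ) ^ 72 * X ^ 8 := by ring
    rw [h1]
    have h2 : (0 : ℝ) ≤ X ^ 8 := by positivity
    have h3 : (5 / 2 : ℝ) * 2 ^ 70 ≤ 2 ^ 72 := by norm_num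
    nlinarith
  set Q : ℝ := 25 * ε * Real.sqrt (5 / 2 * c) with hQ
  have hQ0 : 0 ≤ Q := by
    rw [hQ]
    positivity
  have hbQ : b * Q ≤ 2 ^ 32 * X ^ 3 := by
    have h1 : Q ≤ 25 * ε * (2 ^ 36 * X ^ 4) := mul_le_mul_of_nonneg_left hs (by positivity)
    have h2 : b * (25 * ε * (2 ^ 36 * X ^ 4)) = 2 ^ 32 * X ^ 3 := by
      rw [hε]
      field_simp
      norm_num
    have h3 : b * Q ≤ b * (25 * ε * (2 ^ 36 * X ^ 4)) := mul_le_mul_of_nonneg_left h1 hb0.le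
    linarith
  have h1 : d * (4 * b / c * (8 * X ^ 2 + 2 + Q)) = (d * (4 * b * (8 * X ^ 2 + 2 + Q))) / c := by
    ring
  rw [h1, div_le_div_iff₀ hc0 (by positivity), one_mul]
  have h2 : d * (4 * b * (8 * X ^ 2 + 2 + Q)) * (2 * b)
      = 8 * d * b ^ 2 * (8 * X ^ 2 + 2) + 8 * d * b * (b * Q) := by ring
  rw [h2]
  have h3 : (1 : ℝ) ≤ X ^ 2 := one_le_pow₀ hX
  have h4 : 8 * d * b ^ 2 * (8 * X ^ 2 + 2) ≤ 8 * X * (1600 * X) ^ 2 * (10 * X ^ 2) := by
    gcongr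
    linarith
  have h5 : 8 * d * b * (b * Q) ≤ 8 * X * (1600 * X) * (2 ^ 32 * X ^ 3) := by
    gcongr
  have h6 : 8 * X * (1600 * X) ^ 2 * (10 * X ^ 2) = 204800000 * X ^ 5 := by ring
  have h7 : 8 * X * (1600 * X) * (2 ^ 32 * X ^ 3) = 12800 * 2 ^ 32 * X ^ 5 := by ring
  have h8 : X ^ 5 ≤ X ^ 8 := pow_le_pow8 hX (by norm_num)
  have h9 : (0 : ℝ) ≤ X ^ 8 := by positivity
  rw [hc]
  have h10 : (204800000 : ℝ) + 12800 * 2 ^ 32 ≤ 2 ^ 70 := by norm_num
  nlinarith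

lemma cond_tr (hd0 : 0 ≤ d) (hd : d ≤ X) (hX : 1 ≤ X) (hb1 : 1 ≤ b) (hb : b ≤ 1600 * X)
    (hc : c = 2 ^ 70 * X ^ 8) : 120 * b * d ≤ c := by
  have h1 : 120 * b * d ≤ 120 * (1600 * X) * X := by
    gcongr
  have h2 : 120 * (1600 * X) * X = 192000 * X ^ 2 := by ring
  have h3 : X ^ 2 ≤ X ^ 8 := pow_le_pow8 hX (by norm_num)
  have h4 : (0 : ℝ) ≤ X ^ 8 := by positivity
  rw [hc]
  have h5 : (192000 : ℝ) ≤ 2 ^ 70 := by norm_num
  nlinarith

end conds

/-- The parameters used in the final theorem. -/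
noncomputable def mkPr (d : ℕ) : Pr d where
  c := cC d
  Lp := 100 * (xX d) ^ 2
  ε := eE d
  Δ := 8 * (xX d) ^ 2
  B := bB d
  J₁ := jJ d
  hLp1 := by
    have h1 := xX_d d
    have hd0 : (0 : ℝ) ≤ d := Nat.cast_nonneg d
    have h2 : ((d : ℝ) + 1) ^ 2 ≤ (xX d) ^ 2 := pow_le_pow_left₀ (by linarith) h1 2
    nlinarith
  hLp2 := by
    have h1 : (1 : ℝ) ≤ (xX d) ^ 2 := one_le_pow₀ (xX_ge d)
    linarith
  hcLp := by
    have hX := xX_ge d
    have h3 : (xX d) ^ 2 ≤ (xX d) ^ 8 := pow_le_pow8 hX (by norm_num)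
    have h4 : (0 : ℝ) ≤ (xX d) ^ 8 := by positivity
    unfold cC
    have h5 : (100 : ℝ) ≤ 2 ^ 70 := by norm_num
    nlinarith
  hε0 := by
    have h1 := bb_ge d
    have h2 := xX_ge d
    unfold eE
    positivity
  hε1 := by
    have h1 := bb_ge d
    have h2 := xX_ge d
    unfold eE
    refine one_div_le_one_div_of_le (by norm_num) ?_
    nlinarith
  hB0 := bB_nonneg d
  hsteer := by
    have hd0 : (0 : ℝ) ≤ d := Nat.cast_nonneg d
    have hd := xX_d d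
    exact cond_steer hd0 (by linarith) (xX_ge d) (bb_ge d) (bb_le d) rfl rfl
  hτ := by
    have hd0 : (0 : ℝ) ≤ d := Nat.cast_nonneg d
    have hd := xX_d d
    have h1 := bb_ge d
    have h2 := xX_ge d
    have h3 : 0 ≤ eE d := by
      unfold eE
      positivity
    have h4 : eE d ≤ 1 / 400 := by
      unfold eE
      refine one_div_le_one_div_of_le (by norm_num) ?_
      nlinarith
    have := cond_dom hd0 (by linarith) (xX_ge d) (bb_ge d) (rfl : cC d = 2 ^ 70 * (xX d) ^ 8) h3 h4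
    have h5 : 8 * (xX d) ^ 2 + 2 = 8 * (xX d) ^ 2 + 2 := rfl
    exact this
  hΔ := by
    have h1 := xX_d d
    have hd0 : (0 : ℝ) ≤ d := Nat.cast_nonneg d
    have h2 : ((d : ℝ) + 1) ^ 2 ≤ (xX d) ^ 2 := pow_le_pow_left₀ (by linarith) h1 2
    nlinarith
  hdU := cond_dU (xX_ge d) (bb_ge d) rfl
  hdT := by
    have hd0 : (0 : ℝ) ≤ d := Nat.cast_nonneg d
    have hd := xX_d d
    exact cond_dT hd0 (by linarith) (xX_ge d) (bb_ge d) (bb_le d) rfl rfl
  hη := by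
    have h1 := bb_ge d
    have h2 := xX_ge d
    have h3 : 2 * bb d * eE d = 1 / (200 * xX d) := by
      unfold eE
      field_simp
      norm_num
    change 2 * bb d * eE d ≤ 1 / 20
    rw [h3]
    refine one_div_le_one_div_of_le (by norm_num) ?_
    linarith
  htr := by
    have hd0 : (0 : ℝ) ≤ d := Nat.cast_nonneg d
    have hd := xX_d d
    exact cond_tr hd0 (by linarith) (xX_ge d) (bb_ge d) (bb_le d) rfl
  hψ := le_rfl
  hB := le_rfl

end Vale.Agent.Lib.P262C
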