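import Vale.Agent.Lib.P262C.Walk

/-!
# Rounding with the weighted walk
-/

open Finset
open Vale.Agent.Lib.P262B

namespace Vale.Agent.Lib.P262C

set_option linter.unusedSectionVars false
set_option linter.unusedSimpArgs false
set_option linter.unusedVariables false

variable {ι : Type*} [Fintype ι] [DecidableEq ι] {d : ℕ}

/-- The rows frozen in a phase with `a` fractional coordinates. -/
def Zf (L : Finset (Fin d)) (wt : Fin d → ℕ) (a : ℕ) : Finset (Fin d) :=
  univ.filter fun j => j ∉ L ∧ 32 * wt j ≤ a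

/-- The flat rows of a phase. -/
noncomputable def bF (v : ι → Fin d → ℝ) (L : Finset (Fin d)) (wt : Fin d → ℕ) (a : ℕ) :
    Fin d → ι → ℝ :=
  fun j i => if j ∉ Zf L wt a ∧ j ∉ L then v i j else 0

/-- The rows of the weighted block. -/
noncomputable def cL (v : ι → Fin d → ℝ) (L : Finset (Fin d)) : Fin d → ι → ℝ :=
  fun j i => if j ∈ L then v i j else 0

variable {v : ι → Fin d → ℝ}

lemma cL_sum (L : Finset (Fin d)) (i : ι) : ∑ j, (cL v L j i) ^ 2 = pm v L i := by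
  unfold pm cL
  simp only [ite_pow, zero_pow (two_ne_zero), Finset.sum_ite_mem, Finset.univ_inter]

lemma ev_sub (c t : ι → ℝ) (j : Fin d) : ev v (c - t) j = dot (rowC v j) c - dot (rowC v j) t := by
  simp [ev, dot_sub_right]

lemma Sr_cL (L : Finset (Fin d)) (s t : ι → ℝ) : Sr (cL v L) s t = sqs L (ev v (t - s)) := by
  unfold Sr sqs
  rw [← Finset.sum_filter_add_sum_filter_not univ (fun j => j ∈ L)]
  have h1 : ∑ j ∈ univ.filter (fun j => ¬ j ∈ L), (dot (cL v L j) t - dot (cL v L j) s) ^ 2 = 0 := by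
    refine Finset.sum_eq_zero fun j hj => ?_
    have hj' : j ∉ L := by simpa using hj
    have h2 : ∀ u : ι → ℝ, dot (cL v L j) u = 0 := by
      intro u
      simp [dot, cL, hj']
    rw [h2, h2]
    norm_num
  rw [h1, add_zero]
  have h3 : univ.filter (fun j => j ∈ L) = L := by
    ext j
    simp
  rw [h3]
  refine Finset.sum_congr rfl fun j hj => ?_
  have h2 : ∀ u : ι → ℝ, dot (cL v L j) u = dot (rowC v j) u := by
    intro u
    simp [dot, cL, rowC, hj]
  rw [h2, h2, ev_sub]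

lemma nrm_eq_zero_of {B : Finset (Fin d)} {a : Fin d → ℝ} (h : ∀ j ∈ B, a j = 0) : nrm B a = 0 := by
  unfold nrm sqs
  have : ∑ j ∈ B, (a j) ^ 2 = 0 := Finset.sum_eq_zero fun j hj => by simp [h j hj]
  rw [this, Real.sqrt_zero]

/-- The iterated walk. -/
lemma round_walk (hv : ∀ i, ∑ j, (v i j) ^ 2 ≤ 1) (L : Finset (Fin d)) (wt : Fin d → ℕ)
    (hwt : ∀ a, 32 * (Zf L wt a).card ≤ a) (Pm0 : Finset (ι → ℝ)) (hP0 : Pm0.card ≤ 3)
    (n : ι → ℝ) (hn : ∀ i, 0 < n i) (hnp : ∀ i, pm v L i ≤ n i) (ts : ι → ℝ) :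
    ∀ (Q : ℕ) (t : ι → ℝ), Box t → (frac t).card ≤ 75 * 2 ^ Q →
      Sr (cL v L) ts t ≤ 4 * (Yn n t - Yn n ts) →
      ∃ t', Box t' ∧ (frac t').card ≤ 75 ∧ (∀ i, i ∉ frac t → t' i = t i) ∧ frac t' ⊆ frac t ∧
        (∀ φ ∈ Pm0, dot φ t' = dot φ t) ∧ Sr (cL v L) ts t' ≤ 4 * (Yn n t' - Yn n ts) ∧
        ∀ B : Finset (Fin d), (∀ j ∈ B, j ∉ L) → (∀ j ∈ B, wt j ≤ B.card) →
          nrm B (ev v (t' - t)) ≤ 3 * Real.sqrt (min ((frac t).card : ℝ) (32 * (B.card : ℝ))) := by
  classical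
  intro Q
  induction Q with
  | zero =>
    intro t ht hcard hL
    refine ⟨t, ht, by simpa using hcard, fun _ _ => rfl, subset_rfl, fun _ _ => rfl, hL, ?_⟩
    intro B _ _
    have h0 : ev v (t - t) = 0 := by
      funext j
      simp [ev, dot]
    rw [h0, nrm_eq_zero_of (a := 0) (fun j _ => rfl)]
    positivity
  | succ Q ih =>
    intro t ht hcard hL
    by_cases hsmall : (frac t).card ≤ 75
    · refine ⟨t, ht, hsmall, fun _ _ => rfl, subset_rfl, fun _ _ => rfl, hL, ?_⟩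
      intro B _ _
      have h0 : ev v (t - t) = 0 := by
        funext j
        simp [ev, dot]
      rw [h0, nrm_eq_zero_of (a := 0) (fun j _ => rfl)]
      positivity
    · push Not at hsmall
      obtain ⟨a, ha⟩ : ∃ a, a = (frac t).card := ⟨_, rfl⟩
      rw [← ha] at hcard hsmall
      let Pm : Finset (ι → ℝ) := Pm0 ∪ (Zf L wt a).image (rowC v)
      have hPm : 32 * Pm.card ≤ a + 96 := by
        have h1 : Pm.card ≤ Pm0.card + ((Zf L wt a).image (rowC v)).card :=
          Finset.card_union_le _ _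
        have h2 : ((Zf L wt a).image (rowC v)).card ≤ (Zf L wt a).card := Finset.card_image_le
        have h3 := hwt a
        omega
      have hb : ∀ i, ∑ j, (bF v L wt a j i) ^ 2 ≤ 1 := by
        intro i
        refine le_trans (Finset.sum_le_sum fun j _ => ?_) (hv i)
        unfold bF
        split_ifs
        · exact le_rfl
        · simp [sq_nonneg]
      have hc : ∀ i, ∑ j, (cL v L j i) ^ 2 ≤ n i := by
        intro i
        rw [cL_sum]
        exact hnp i
      obtain ⟨t₁, hinv, hhalf⟩ := walk_phase (bF v L wt a) (cL v L) n hn hb hc Pm ts t a ha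
        (by omega) hPm ht hL
      have hcard₁ : (frac t₁).card ≤ 75 * 2 ^ Q := by
        have h1 : a ≤ 2 * (75 * 2 ^ Q) := by
          calc a ≤ 75 * 2 ^ (Q + 1) := hcard
            _ = 2 * (75 * 2 ^ Q) := by ring
        omega
      obtain ⟨t', h1, h2, h3, h4, h5, h6, h7⟩ := ih t₁ hinv.box hcard₁ hinv.potL
      have hsub₁ := hinv.frac_subset
      refine ⟨t', h1, h2, ?_, h4.trans hsub₁, ?_, h6, ?_⟩
      · intro i hi
        rw [h3 i (fun h => hi (hsub₁ h)), hinv.off i hi]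
      · intro φ hφ
        rw [h5 φ hφ, hinv.perm φ (Finset.mem_union_left _ hφ)]
      · intro B hBL hBw
        have hsplit : t' - t = (t' - t₁) + (t₁ - t) := by abel
        rw [hsplit, ev_add, ← ha]
        have hfrozen : ∀ j, j ∈ Zf L wt a → ev v (t₁ - t) j = 0 := by
          intro j hj
          rw [ev_sub, hinv.perm (rowC v j) (Finset.mem_union_right _
            (Finset.mem_image_of_mem _ hj)), sub_self]
        have hS : sqs B (ev v (t₁ - t)) ≤ (a : ℝ) / 2 := by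
          have h8 : sqs B (ev v (t₁ - t)) ≤ Sr (bF v L wt a) t t₁ := by
            unfold Sr sqs
            calc ∑ j ∈ B, (ev v (t₁ - t) j) ^ 2
                ≤ ∑ j ∈ B, (dot (bF v L wt a j) t₁ - dot (bF v L wt a j) t) ^ 2 := by
                  refine Finset.sum_le_sum fun j hj => ?_
                  by_cases hjz : j ∈ Zf L wt a
                  · rw [hfrozen j hjz]
                    simp [sq_nonneg]
                  · have h9 : ∀ u : ι → ℝ, dot (bF v L wt a j) u = dot (rowC v j) u := by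
                      intro u
                      simp [dot, bF, rowC, hjz, hBL j hj]
                    rw [h9, h9, ev_sub]
              _ ≤ _ := Finset.sum_le_sum_of_subset_of_nonneg (Finset.subset_univ _)
                  (fun _ _ _ => sq_nonneg _)
          have h9 := hinv.pot
          have h10 := Yf_diff_le hinv.box hinv.off
          rw [← ha] at h10
          linarith
        have hadd := nrm_add_le B (ev v (t' - t₁)) (ev v (t₁ - t))
        have hih := h7 B hBL hBw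
        have ha₁ : ((frac t₁).card : ℝ) ≤ (a : ℝ) / 2 := by
          have h8 : (2 * (frac t₁).card : ℝ) ≤ a := by exact_mod_cast hhalf
          linarith
        have ha₀ : (0 : ℝ) ≤ (frac t₁).card := Nat.cast_nonneg _
        have hB0 : (0 : ℝ) ≤ B.card := Nat.cast_nonneg _
        have ha0 : (0 : ℝ) ≤ a := Nat.cast_nonneg _
        by_cases hbig : 32 * B.card ≤ a
        · have h8 : nrm B (ev v (t₁ - t)) = 0 := by
            refine nrm_eq_zero_of fun j hj => hfrozen j ?_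
            simp only [Zf, Finset.mem_filter, Finset.mem_univ, true_and]
            refine ⟨hBL j hj, ?_⟩
            have := hBw j hj
            omega
          have h9 : ((32 * B.card : ℕ) : ℝ) ≤ a := by exact_mod_cast hbig
          push_cast at h9
          rw [min_eq_right h9]
          have h10 : Real.sqrt (min ((frac t₁).card : ℝ) (32 * (B.card : ℝ)))
              ≤ Real.sqrt (32 * (B.card : ℝ)) := Real.sqrt_le_sqrt (min_le_right _ _)
          linarith
        · push Not at hbig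
          have h9 : (a : ℝ) ≤ 32 * (B.card : ℝ) := by
            have : a ≤ 32 * B.card := hbig.le
            exact_mod_cast this
          rw [min_eq_left h9]
          have h10 : Real.sqrt (min ((frac t₁).card : ℝ) (32 * (B.card : ℝ)))
              ≤ Real.sqrt ((a : ℝ) / 2) := Real.sqrt_le_sqrt ((min_le_left _ _).trans ha₁)
          have h11 : nrm B (ev v (t₁ - t)) ≤ Real.sqrt ((a : ℝ) / 2) := Real.sqrt_le_sqrt hS
          have h12 : 4 * Real.sqrt ((a : ℝ) / 2) ≤ 3 * Real.sqrt (a : ℝ) := by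
            have h13 := Real.sqrt_nonneg ((a : ℝ) / 2)
            have h14 := Real.sqrt_nonneg (a : ℝ)
            have h15 := Real.sq_sqrt (by positivity : (0 : ℝ) ≤ (a : ℝ) / 2)
            have h16 := Real.sq_sqrt ha0
            refine abs_le_of_sq_le_sq' ?_ (by positivity) |>.2
            nlinarith
          linarith

/-- Displacements supported on at most `75` coordinates. -/
lemma nrm_small (hv : ∀ i, ∑ j, (v i j) ^ 2 ≤ 1) (B : Finset (Fin d)) (c : ι → ℝ) (A : Finset ι)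
    (hA : A.card ≤ 75) (hc : ∀ i, i ∉ A → c i = 0) (hc1 : ∀ i, |c i| ≤ 1) :
    nrm B (ev v c) ≤ 75 := by
  have h1 := sqs_ev_le (v := v) B c A hc hc1
  have h2 : ∑ i ∈ A, pm v B i ≤ (A.card : ℝ) := by
    calc ∑ i ∈ A, pm v B i ≤ ∑ i ∈ A, (1 : ℝ) := Finset.sum_le_sum fun i _ => pm_le hv B i
      _ = _ := by simp
  have h3 : (A.card : ℝ) ≤ 75 := by exact_mod_cast hA
  have h4 : (0 : ℝ) ≤ A.card := Nat.cast_nonneg _
  have h5 : (0 : ℝ) ≤ ∑ i ∈ A, pm v B i := Finset.sum_nonneg fun i _ => pm_nonneg B i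
  refine Real.sqrt_le_iff.2 ⟨by norm_num, ?_⟩
  nlinarith

/-- Weighted version of the previous bound. -/
lemma sqs_small (L : Finset (Fin d)) (c : ι → ℝ) (A : Finset ι) (hA : A.card ≤ 75)
    (hc : ∀ i, i ∉ A → c i = 0) (hc1 : ∀ i, |c i| ≤ 1) {E : ℝ} (hE : ∑ i ∈ A, pm v L i ≤ E) :
    sqs L (ev v c) ≤ 75 * E := by
  have h1 := sqs_ev_le (v := v) L c A hc hc1
  have h3 : (A.card : ℝ) ≤ 75 := by exact_mod_cast hA
  have h4 : (0 : ℝ) ≤ A.card := Nat.cast_nonneg _
  have h5 : (0 : ℝ) ≤ ∑ i ∈ A, pm v L i := Finset.sum_nonneg fun i _ => pm_nonneg L i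
  nlinarith

lemma block_arith {x y : ℝ} {m : ℕ} (hx : x ≤ 3 * Real.sqrt (32 * (m : ℝ))) (hy : y ≤ 75)
    (hm : 1 ≤ m) (hx0 : 0 ≤ x) (hy0 : 0 ≤ y) : (x + y) ^ 2 ≤ 8464 * (m : ℝ) := by
  have hm' : (1 : ℝ) ≤ m := by exact_mod_cast hm
  have h1 : Real.sqrt (32 * (m : ℝ)) ≤ 17 / 3 * Real.sqrt (m : ℝ) := by
    rw [Real.sqrt_mul (by norm_num)]
    refine mul_le_mul_of_nonneg_right ?_ (Real.sqrt_nonneg _)
    refine Real.sqrt_le_iff.2 ⟨by norm_num, by norm_num⟩
  have hs1 : 1 ≤ Real.sqrt (m : ℝ) := by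
    rw [Real.le_sqrt' (by norm_num)]
    simpa using hm'
  have hs2 := Real.sq_sqrt (by linarith : (0 : ℝ) ≤ (m : ℝ))
  have h2 : x + y ≤ 92 * Real.sqrt (m : ℝ) := by linarith
  have h3 : (x + y) ^ 2 ≤ (92 * Real.sqrt (m : ℝ)) ^ 2 := pow_le_pow_left₀ (by linarith) h2 2
  nlinarith

/-- The full rounding. -/
lemma rounding2 (hv : ∀ i, ∑ j, (v i j) ^ 2 ≤ 1) (L T : Finset (Fin d)) (hLT : L ⊆ T)
    (wt : Fin d → ℕ) (hwt : ∀ a, 32 * (Zf L wt a).card ≤ a)
    (hTw : ∀ j ∈ T \ L, wt j ≤ (T \ L).card) (g : ι → ℝ) (ζ : Fin d → ℝ) (pmax gmax : ℝ)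
    (hpmax : 0 ≤ pmax) (hgmax : 0 ≤ gmax) (t : ι → ℝ) (ht : Box t)
    (hp : ∀ i ∈ frac t, pm v L i ≤ pmax) (hg : ∀ i ∈ frac t, |g i| ≤ gmax) :
    ∃ χ : ι → ℝ, (∀ i, χ i = 0 ∨ χ i = 1) ∧ (∀ i, i ∉ frac t → χ i = t i) ∧
      (∀ j l, |dot (rowP v j l) (χ - t)| ≤ (d : ℝ) ^ 2 + d + 3) ∧
      |dot (pm v L) (χ - t)| ≤ 3 * pmax ∧ |dot g (χ - t)| ≤ 3 * gmax ∧
      (∀ B : Finset (Fin d), (∀ j ∈ B, j ∉ L) → (∀ j ∈ B, wt j ≤ B.card) →
        sqs B (ev v (χ - t)) ≤ 8464 * (B.card : ℝ)) ∧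
      nrm L (ev v (χ - t)) ≤ 11 * Real.sqrt (∑ i ∈ frac t, pm v L i) ∧
      sqs T (ζ + ev v (χ - t)) ≤ sqs T ζ + 103 * (∑ i ∈ frac t, pm v L i)
        + 8467 * ((T \ L).card : ℝ) := by
  classical
  set E := ∑ i ∈ frac t, pm v L i with hE
  have hE0 : 0 ≤ E := Finset.sum_nonneg fun i _ => pm_nonneg L i
  set Pm0 : Finset (ι → ℝ) := {pm v L, rowZ v T ζ, g} with hPm0
  have hP0 : Pm0.card ≤ 3 := Finset.card_le_three
  set FA : Finset (ι → ℝ) := (univ.image (fun j => rowC v j)) ∪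
    (univ.image (fun p : Fin d × Fin d => rowP v p.1 p.2)) ∪ Pm0 with hFA
  have hcA : FA.card ≤ d ^ 2 + d + 3 := by
    have h1 : (univ.image (fun j => rowC v j)).card ≤ d := by
      simpa using Finset.card_image_le (s := (univ : Finset (Fin d))) (f := fun j => rowC v j)
    have h2 : (univ.image (fun p : Fin d × Fin d => rowP v p.1 p.2)).card ≤ d ^ 2 := by
      have := Finset.card_image_le (s := (univ : Finset (Fin d × Fin d)))
        (f := fun p : Fin d × Fin d => rowP v p.1 p.2)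
      simpa [sq] using this
    have h3 : FA.card ≤ ((univ.image (fun j => rowC v j)) ∪
        (univ.image (fun p : Fin d × Fin d => rowP v p.1 p.2))).card + Pm0.card :=
      Finset.card_union_le _ _
    have h4 := Finset.card_union_le (univ.image (fun j => rowC v j))
      (univ.image (fun p : Fin d × Fin d => rowP v p.1 p.2))
    omega
  obtain ⟨t₁, hb₁, hoff₁, hdot₁, hcard₁, hsub₁⟩ := kernel_walk FA _ t le_rfl ht
  have hdC : ∀ j, dot (rowC v j) t₁ = dot (rowC v j) t := by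
    intro j
    exact hdot₁ _ (by simp [hFA])
  have hdP : ∀ j l, dot (rowP v j l) t₁ = dot (rowP v j l) t := by
    intro j l
    exact hdot₁ _ (by
      simp only [hFA, Finset.mem_union, Finset.mem_image]
      exact Or.inl (Or.inr ⟨(j, l), Finset.mem_univ _, rfl⟩))
  have hdP0 : ∀ φ ∈ Pm0, dot φ t₁ = dot φ t := fun φ hφ =>
    hdot₁ φ (Finset.mem_union_right _ hφ)
  -- the weights
  set a₁ := (frac t₁).card with ha₁
  set E₁ := ∑ i ∈ frac t₁, pm v L i with hE₁
  have hE₁0 : 0 ≤ E₁ := Finset.sum_nonneg fun i _ => pm_nonneg L i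
  have hE₁E : E₁ ≤ E := Finset.sum_le_sum_of_subset_of_nonneg hsub₁ (fun i _ _ => pm_nonneg L i)
  set η : ℝ := if 0 < E₁ then E₁ / a₁ else 1 with hη
  have ha₁pos : 0 < E₁ → (0 : ℝ) < a₁ := by
    intro hpos
    have : (frac t₁).Nonempty := by
      by_contra hne
      rw [Finset.not_nonempty_iff_eq_empty] at hne
      simp [hE₁, hne] at hpos
    exact_mod_cast Finset.card_pos.2 this
  have hηpos : 0 < η := by
    simp only [hη]
    split_ifs with h
    · exact div_pos h (ha₁pos h)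
    · norm_num
  let n : ι → ℝ := fun i => pm v L i + η
  have hn : ∀ i, 0 < n i := fun i => add_pos_of_nonneg_of_pos (pm_nonneg L i) hηpos
  have hnp : ∀ i, pm v L i ≤ n i := fun i => by
    simp only [n]
    linarith
  have hQ : (frac t₁).card ≤ 75 * 2 ^ a₁ := by
    have h1 : a₁ < 2 ^ a₁ := Nat.lt_two_pow_self
    omega
  obtain ⟨t₂, hb₂, hcard₂, hoff₂, hsub₂, hdot₂, hpot₂, hblock⟩ :=
    round_walk hv L wt hwt Pm0 hP0 n hn hnp t₁ a₁ t₁ hb₁ hQ (by simp [Sr])
  obtain ⟨t₃, hb₃, hoff₃, hdot₃, hcard₃, hsub₃⟩ := kernel_walk Pm0 _ t₂ le_rfl hb₂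
  have hcard₃' : (frac t₃).card ≤ 3 := hcard₃.trans hP0
  have hPerm : ∀ φ ∈ Pm0, dot φ t₃ = dot φ t := by
    intro φ hφ
    rw [hdot₃ φ hφ, hdot₂ φ hφ, hdP0 φ hφ]
  have hZ0 : dot (rowZ v T ζ) (t₃ - t) = 0 := by
    rw [dot_sub_right, hPerm _ (by simp [hPm0]), sub_self]
  obtain ⟨χ, h1, h2, h3⟩ := round_signs (v := v) T (ζ + ev v (t₃ - t)) t₃ hb₃ (frac t₃)
  have hχ01 : ∀ i, χ i = 0 ∨ χ i = 1 := by
    intro i
    by_cases hi : i ∈ frac t₃
    · exact h1 i hi
    · rw [h2 i hi]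
      exact not_frac hb₃ hi
  have hχbox : Box χ := by
    intro i
    rcases hχ01 i with h | h <;> rw [h] <;> norm_num
  have hsub13 : frac t₃ ⊆ frac t := hsub₃.trans (hsub₂.trans hsub₁)
  have hχoff : ∀ i, i ∉ frac t → χ i = t i := by
    intro i hi
    have h4 : i ∉ frac t₁ := fun h => hi (hsub₁ h)
    have h5 : i ∉ frac t₂ := fun h => h4 (hsub₂ h)
    rw [h2 i (fun h => h5 (hsub₃ h)), hoff₃ i h5, hoff₂ i h4, hoff₁ i hi]
  -- decompositions
  have hev0 : ev v (t₁ - t) = 0 := by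
    funext j
    simp [ev_sub, hdC j]
  have hsplit : ev v (χ - t) = ev v (t₂ - t₁) + ev v (χ - t₂) := by
    have : χ - t = (t₂ - t₁) + (χ - t₂) + (t₁ - t) := by abel
    rw [this, ev_add, ev_add, hev0, add_zero]
  have hsplit3 : ev v (t₃ - t) = ev v (t₂ - t₁) + ev v (t₃ - t₂) := by
    have : t₃ - t = (t₂ - t₁) + (t₃ - t₂) + (t₁ - t) := by abel
    rw [this, ev_add, ev_add, hev0, add_zero]
  have hc₂ : ∀ i, i ∉ frac t₂ → (χ - t₂) i = 0 := by
    intro i hi
    simp [h2 i (fun h => hi (hsub₃ h)), hoff₃ i hi]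
  have hc₂1 : ∀ i, |(χ - t₂) i| ≤ 1 := fun i => abs_diff_le_one (hχbox i) (hb₂ i)
  have hc₃ : ∀ i, i ∉ frac t₂ → (t₃ - t₂) i = 0 := by
    intro i hi
    simp [hoff₃ i hi]
  have hc₃1 : ∀ i, |(t₃ - t₂) i| ≤ 1 := fun i => abs_diff_le_one (hb₃ i) (hb₂ i)
  have hmass₂ : ∑ i ∈ frac t₂, pm v L i ≤ E :=
    le_trans (Finset.sum_le_sum_of_subset_of_nonneg hsub₂ (fun i _ _ => pm_nonneg L i)) hE₁E
  -- the weighted block
  have hL1 : sqs L (ev v (t₂ - t₁)) ≤ 2 * E := by
    rcases hE₁0.lt_or_eq with hpos | hzero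
    · have h4 := Yn_diff_le (n := n) (fun i => (hn i).le) hb₂ hoff₂
      have h5 : ∑ i ∈ frac t₁, n i = 2 * E₁ := by
        simp only [n]
        rw [Finset.sum_add_distrib, Finset.sum_const, nsmul_eq_mul, ← hE₁, ← ha₁]
        simp only [hη, hpos, if_true]
        have := (ha₁pos hpos).ne'
        field_simp
        ring
      rw [Sr_cL] at hpot₂
      rw [h5] at h4
      linarith
    · have h4 := sqs_ev_le (v := v) L (t₂ - t₁) (frac t₁)
        (fun i hi => by simp [hoff₂ i hi]) (fun i => abs_diff_le_one (hb₂ i) (hb₁ i))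
      rw [← hE₁, ← hzero, mul_zero] at h4
      linarith
  have hnL1 : nrm L (ev v (t₂ - t₁)) ≤ 71 / 50 * Real.sqrt E := by
    have hsE := Real.sq_sqrt hE0
    have hsE0 := Real.sqrt_nonneg E
    refine Real.sqrt_le_iff.2 ⟨by positivity, ?_⟩
    nlinarith
  have hnL2 : nrm L (ev v (χ - t₂)) ≤ 867 / 100 * Real.sqrt E := by
    have h4 := sqs_small (v := v) L (χ - t₂) (frac t₂) hcard₂ hc₂ hc₂1 hmass₂
    have hsE := Real.sq_sqrt hE0
    have hsE0 := Real.sqrt_nonneg E
    refine Real.sqrt_le_iff.2 ⟨by positivity, ?_⟩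
    nlinarith
  have hnL3 : nrm L (ev v (t₃ - t₂)) ≤ 867 / 100 * Real.sqrt E := by
    have h4 := sqs_small (v := v) L (t₃ - t₂) (frac t₂) hcard₂ hc₃ hc₃1 hmass₂
    have hsE := Real.sq_sqrt hE0
    have hsE0 := Real.sqrt_nonneg E
    refine Real.sqrt_le_iff.2 ⟨by positivity, ?_⟩
    nlinarith
  -- blocks
  have hblock' : ∀ B : Finset (Fin d), (∀ j ∈ B, j ∉ L) → (∀ j ∈ B, wt j ≤ B.card) →
      ∀ c : ι → ℝ, (∀ i, i ∉ frac t₂ → c i = 0) → (∀ i, |c i| ≤ 1) →
        sqs B (ev v (t₂ - t₁) + ev v c) ≤ 8464 * (B.card : ℝ) := by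
    intro B hBL hBw c hc hc1
    by_cases hB : B.card = 0
    · rw [Finset.card_eq_zero.1 hB]
      simp [sqs]
    · have hm : 1 ≤ B.card := Nat.one_le_iff_ne_zero.2 hB
      have h4 := hblock B hBL hBw
      have h5 : nrm B (ev v (t₂ - t₁)) ≤ 3 * Real.sqrt (32 * (B.card : ℝ)) :=
        h4.trans (mul_le_mul_of_nonneg_left (Real.sqrt_le_sqrt (min_le_right _ _)) (by norm_num))
      have h6 := nrm_small hv B c (frac t₂) hcard₂ hc hc1
      have h7 := block_arith h5 h6 hm (nrm_nonneg _ _) (nrm_nonneg _ _)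
      have h8 := nrm_add_le B (ev v (t₂ - t₁)) (ev v c)
      have h9 := nrm_sq B (ev v (t₂ - t₁) + ev v c)
      have h10 := nrm_nonneg B (ev v (t₂ - t₁) + ev v c)
      have h11 : (nrm B (ev v (t₂ - t₁) + ev v c)) ^ 2
          ≤ (nrm B (ev v (t₂ - t₁)) + nrm B (ev v c)) ^ 2 := pow_le_pow_left₀ h10 h8 2
      linarith
  refine ⟨χ, hχ01, hχoff, ?_, ?_, ?_, ?_, ?_, ?_⟩
  · intro j l
    rw [dot_sub_right, ← hdP j l, ← dot_sub_right]
    have hoffχ : ∀ i, i ∉ frac t₁ → (χ - t₁) i = 0 := by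
      intro i hi
      have h5 : i ∉ frac t₂ := fun h => hi (hsub₂ h)
      simp [h2 i (fun h => h5 (hsub₃ h)), hoff₃ i h5, hoff₂ i hi]
    have h4 := abs_dot_le (rowP v j l) (χ - t₁) (frac t₁) 1 hoffχ
      (fun i => abs_diff_le_one (hχbox i) (hb₁ i))
      (fun i _ => by
        simp only [rowP, abs_mul]
        have h8 := coord_abs_le hv i j
        have h9 := coord_abs_le hv i l
        nlinarith [abs_nonneg (v i j), abs_nonneg (v i l)])
    have hc : ((frac t₁).card : ℝ) ≤ (d : ℝ) ^ 2 + d + 3 := by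
      have : (frac t₁).card ≤ d ^ 2 + d + 3 := le_trans hcard₁ hcA
      exact_mod_cast this
    linarith
  · have hs : χ - t = (χ - t₃) + (t₃ - t) := by abel
    rw [hs, dot_add_right, dot_sub_right (pm v L) t₃ t, hPerm _ (by simp [hPm0]), sub_self,
      add_zero]
    have h4 := abs_dot_le (pm v L) (χ - t₃) (frac t₃) pmax
      (fun i hi => by simp [h2 i hi])
      (fun i => abs_diff_le_one (hχbox i) (hb₃ i))
      (fun i hi => by
        rw [abs_of_nonneg (pm_nonneg L i)]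
        exact hp i (hsub13 hi))
    have hc : ((frac t₃).card : ℝ) ≤ 3 := by exact_mod_cast hcard₃'
    calc _ ≤ ((frac t₃).card : ℝ) * pmax := h4
      _ ≤ 3 * pmax := mul_le_mul_of_nonneg_right hc hpmax
  · have hs : χ - t = (χ - t₃) + (t₃ - t) := by abel
    rw [hs, dot_add_right, dot_sub_right g t₃ t, hPerm _ (by simp [hPm0]), sub_self, add_zero]
    have h4 := abs_dot_le g (χ - t₃) (frac t₃) gmax
      (fun i hi => by simp [h2 i hi])
      (fun i => abs_diff_le_one (hχbox i) (hb₃ i))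
      (fun i hi => hg i (hsub13 hi))
    have hc : ((frac t₃).card : ℝ) ≤ 3 := by exact_mod_cast hcard₃'
    calc _ ≤ ((frac t₃).card : ℝ) * gmax := h4
      _ ≤ 3 * gmax := mul_le_mul_of_nonneg_right hc hgmax
  · intro B hBL hBw
    rw [hsplit]
    exact hblock' B hBL hBw _ hc₂ hc₂1
  · rw [hsplit]
    have h4 := nrm_add_le L (ev v (t₂ - t₁)) (ev v (χ - t₂))
    have hsE0 := Real.sqrt_nonneg E
    linarith
  · -- the block `T`
    have hdecomp : ζ + ev v (χ - t) = (ζ + ev v (t₃ - t)) + ev v (χ - t₃) := by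
      have : χ - t = (χ - t₃) + (t₃ - t) := by abel
      rw [this, ev_add]
      abel
    rw [hdecomp]
    refine le_trans h3 ?_
    have h4 : sqs T (ζ + ev v (t₃ - t)) = sqs T ζ + sqs T (ev v (t₃ - t)) := by
      rw [sqs_add, ipr_ev, hZ0]
      ring
    have h5 : sqs T (ev v (t₃ - t)) = sqs L (ev v (t₃ - t)) + sqs (T \ L) (ev v (t₃ - t)) := by
      unfold sqs
      rw [add_comm]
      exact (Finset.sum_sdiff hLT).symm
    have h6 : sqs L (ev v (t₃ - t)) ≤ 102 * E := by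
      have h7 := nrm_add_le L (ev v (t₂ - t₁)) (ev v (t₃ - t₂))
      rw [← hsplit3] at h7
      have h8 := nrm_sq L (ev v (t₃ - t))
      have h9 := nrm_nonneg L (ev v (t₃ - t))
      have hsE := Real.sq_sqrt hE0
      have hsE0 := Real.sqrt_nonneg E
      have h10 : nrm L (ev v (t₃ - t)) ≤ 1009 / 100 * Real.sqrt E := by linarith
      have h11 := pow_le_pow_left₀ h9 h10 2
      nlinarith
    have h7 : sqs (T \ L) (ev v (t₃ - t)) ≤ 8464 * ((T \ L).card : ℝ) := by
      rw [hsplit3]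
      exact hblock' _ (fun j hj => (Finset.mem_sdiff.1 hj).2) hTw _ hc₃ hc₃1
    have h8 : ∑ i ∈ frac t₃, pm v T i ≤ E + 3 * ((T \ L).card : ℝ) := by
      have h9 : ∀ i, pm v T i = pm v L i + pm v (T \ L) i := by
        intro i
        unfold pm
        rw [add_comm]
        exact (Finset.sum_sdiff hLT).symm
      simp only [h9]
      rw [Finset.sum_add_distrib]
      have h10 : ∑ i ∈ frac t₃, pm v L i ≤ E :=
        Finset.sum_le_sum_of_subset_of_nonneg hsub13 (fun i _ _ => pm_nonneg L i)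
      have h11 : ∑ i ∈ frac t₃, pm v (T \ L) i ≤ 3 * ((T \ L).card : ℝ) := by
        by_cases hm : (T \ L).card = 0
        · rw [Finset.card_eq_zero.1 hm]
          simp [pm]
        · have hm1 : (1 : ℝ) ≤ ((T \ L).card : ℝ) := by
            exact_mod_cast Nat.one_le_iff_ne_zero.2 hm
          have h12 : ∑ i ∈ frac t₃, pm v (T \ L) i ≤ ((frac t₃).card : ℝ) := by
            calc _ ≤ ∑ i ∈ frac t₃, (1 : ℝ) := Finset.sum_le_sum fun i _ => pm_le hv _ i
              _ = _ := by simp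
          have h13 : ((frac t₃).card : ℝ) ≤ 3 := by exact_mod_cast hcard₃'
          linarith
      linarith
    linarith

end Vale.Agent.Lib.P262C
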