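import Vale.Agent.Lib.P262C.Node

/-!
# The tilt and the existence of the split at a node
-/

open Finset
open Vale.Agent.Lib.P262B

namespace Vale.Agent.Lib.P262C

set_option linter.unusedSectionVars false
set_option linter.unusedSimpArgs false
set_option linter.unusedVariables false

variable {ι : Type*} [Fintype ι] [DecidableEq ι] {d : ℕ}

/-- The steering vector. -/
lemma steer' (v : ι → Fin d → ℝ) (R : Finset ι) (H : Finset (Fin d)) (g : Fin d → ℝ)
    (b c τ : ℝ) (hb : 0 ≤ b) (hc : 0 < c) (hτ0 : 0 ≤ τ)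
    (hD : ∀ k ∈ H, c / 2 ≤ Mx v R k k)
    (hrow : ∀ k ∈ H, ∀ l ∈ H, k ≠ l → |Mx v R k l| / Mx v R l l ≤ τ)
    (hτ : (d : ℝ) * τ ≤ 1 / 2) (hg : ∀ k ∈ H, |g k| ≤ b) :
    ∃ (f : ι → ℝ) (w : Fin d → ℝ), (∀ k ∈ H, |w k| ≤ 2 * b / Mx v R k k) ∧
      (∀ k ∈ H, |w k| ≤ 4 * b / c) ∧ (∀ i, f i = ∑ k ∈ H, w k * v i k) ∧
      (∀ j, ∑ i ∈ R, f i * v i j = ∑ k ∈ H, w k * Mx v R j k) ∧
      (∀ k ∈ H, ∑ i ∈ R, f i * v i k = g k) ∧
      ∑ i ∈ R, (f i) ^ 2 ≤ (d : ℝ) * (4 * b ^ 2 / c) := by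
  classical
  have hHcard : (H.card : ℝ) ≤ d := by
    have : H.card ≤ d := by
      simpa using Finset.card_le_univ H
    exact_mod_cast this
  have hDpos : ∀ k ∈ H, 0 < Mx v R k k := fun k hk => by
    have := hD k hk
    linarith
  let N : H → H → ℝ := fun k l => Mx v R k l / Mx v R l l
  have hdiag : ∀ k, N k k = 1 := fun k => div_self (hDpos k k.2).ne'
  have hrow' : ∀ k, ∑ l ∈ univ.erase k, |N k l| ≤ 1 / 2 := by
    intro k
    calc ∑ l ∈ univ.erase k, |N k l| ≤ ∑ l ∈ univ.erase k, τ := by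
          refine sum_le_sum fun l hl => ?_
          have hne : (k : Fin d) ≠ l := by
            intro h
            exact (Finset.mem_erase.1 hl).1 (Subtype.ext h.symm)
          have h2 := hrow k k.2 l l.2 hne
          simp only [N]
          rwa [abs_div, abs_of_pos (hDpos l l.2)]
      _ = ((univ.erase k).card : ℝ) * τ := by simp
      _ ≤ (d : ℝ) * τ := by
          refine mul_le_mul_of_nonneg_right ?_ hτ0
          have h3 : (univ.erase k).card ≤ Fintype.card H := by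
            exact (Finset.card_le_univ _)
          have h4 : Fintype.card H = H.card := Fintype.card_coe H
          have h5 : ((univ.erase k).card : ℝ) ≤ H.card := by
            rw [← h4]
            exact_mod_cast h3
          linarith
      _ ≤ 1 / 2 := hτ
  obtain ⟨u, hu1, hu2⟩ := solve_dd N hdiag hrow' (fun k => g k) b (fun k => hg k k.2)
  let w : Fin d → ℝ := fun k => if hk : k ∈ H then u ⟨k, hk⟩ / Mx v R k k else 0
  have hwH : ∀ k (hk : k ∈ H), w k = u ⟨k, hk⟩ / Mx v R k k := fun k hk => by simp [w, hk]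
  have hw2 : ∀ k ∈ H, |w k| ≤ 2 * b / Mx v R k k := by
    intro k hk
    rw [hwH k hk, abs_div, abs_of_pos (hDpos k hk)]
    exact div_le_div_of_nonneg_right (hu2 ⟨k, hk⟩) (hDpos k hk).le
  have hw : ∀ k ∈ H, |w k| ≤ 4 * b / c := by
    intro k hk
    rw [hwH k hk, abs_div, abs_of_pos (hDpos k hk)]
    have h1 := hu2 ⟨k, hk⟩
    have h2 := hD k hk
    rw [div_le_div_iff₀ (hDpos k hk) hc]
    have h3 : |u ⟨k, hk⟩| * c ≤ 2 * b * c := mul_le_mul_of_nonneg_right h1 hc.le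
    have h4 : 2 * b * c ≤ 4 * b * Mx v R k k := by
      nlinarith
    linarith
  let f : ι → ℝ := fun i => ∑ k ∈ H, w k * v i k
  have hf : ∀ j, ∑ i ∈ R, f i * v i j = ∑ k ∈ H, w k * Mx v R j k := by
    intro j
    simp only [f, Mx, Finset.sum_mul, Finset.mul_sum]
    rw [Finset.sum_comm]
    refine sum_congr rfl fun k _ => sum_congr rfl fun i _ => by ring
  have hsolve : ∀ k ∈ H, ∑ i ∈ R, f i * v i k = g k := by
    intro k hk
    rw [hf k]
    have h1 := hu1 ⟨k, hk⟩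
    rw [← h1, ← Finset.sum_coe_sort H]
    refine sum_congr rfl fun l _ => ?_
    rw [hwH l l.2]
    simp only [N]
    ring
  refine ⟨f, w, hw2, hw, fun _ => rfl, hf, hsolve, ?_⟩
  have hnorm : ∑ i ∈ R, (f i) ^ 2 = ∑ k ∈ H, w k * g k := by
    calc ∑ i ∈ R, (f i) ^ 2 = ∑ i ∈ R, ∑ k ∈ H, w k * (f i * v i k) := by
          refine sum_congr rfl fun i _ => ?_
          rw [sq]
          conv_lhs => rw [show f i * f i = f i * ∑ k ∈ H, w k * v i k from rfl]
          rw [Finset.mul_sum]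
          refine sum_congr rfl fun k _ => by ring
      _ = ∑ k ∈ H, w k * g k := by
          rw [Finset.sum_comm]
          refine sum_congr rfl fun k hk => ?_
          rw [← Finset.mul_sum, hsolve k hk]
  rw [hnorm]
  calc ∑ k ∈ H, w k * g k ≤ ∑ k ∈ H, (4 * b ^ 2 / c) := by
        refine sum_le_sum fun k hk => ?_
        have h1 := hw k hk
        have h2 := hg k hk
        have h3 : w k * g k ≤ |w k| * |g k| := by
          rw [← abs_mul]
          exact le_abs_self _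
        have h4 : |w k| * |g k| ≤ (4 * b / c) * b :=
          mul_le_mul h1 h2 (abs_nonneg _) (by positivity)
        have h5 : (4 * b / c) * b = 4 * b ^ 2 / c := by ring
        linarith
    _ = (H.card : ℝ) * (4 * b ^ 2 / c) := by simp
    _ ≤ _ := mul_le_mul_of_nonneg_right hHcard (by positivity)

variable {p : Pr d} {v : ι → Fin d → ℝ} {ν : Fin d → ℝ}

/-- The tilt at a node. -/
lemma steer_node' (hv : ∀ i, ∑ j, (v i j) ^ 2 ≤ 1) (hν : ∀ j, 0 ≤ ν j) {ℓ : ℕ} {G R : Finset ι}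
    {h h₂ : ι} (hG : G = insert h (insert h₂ R)) (hh : h ∉ insert h₂ R) (hh₂ : h₂ ∉ R)
    (horth : OInv p v ν ℓ G) (htr : TInv p v ν ℓ G) (g : Fin d → ℝ)
    (hg : ∀ k, k ∉ Ts p ν ℓ → |g k| ≤ p.b) :
    ∃ f : ι → ℝ, (∀ k, k ∉ Ts p ν ℓ → ∑ i ∈ R, f i * v i k = g k) ∧
      (∑ i ∈ R, (f i) ^ 2 ≤ p.ε ^ 2) ∧
      (∀ i, |f i| ≤ ∑ k ∈ univ \ Ts p ν ℓ, 4 * p.b / mu v G k) ∧
      (∀ j, j ∈ Ts p ν ℓ → Trk p ν ℓ j → mu v G j ≤ 5 / 2 * p.c →
        |∑ i ∈ R, f i * v i j| ≤ 1 / (2 * p.b)) := by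
  classical
  set H : Finset (Fin d) := univ \ Ts p ν ℓ with hH
  have hHmem : ∀ k, k ∈ H ↔ k ∉ Ts p ν ℓ := fun k => by simp [hH]
  have hbdef : p.b = Real.sqrt p.B + 1 := rfl
  set b : ℝ := p.b with hb
  have hb0 : 0 ≤ b := p.b_pos.le
  have hc0 := p.c_pos
  have hcge := p.c_ge
  have hMx : ∀ j l, Mx v G j l = v h j * v h l + (v h₂ j * v h₂ l + Mx v R j l) := fun j l =>
    sum_decomp hG hh hh₂ (fun i => v i j * v i l)
  have hone : ∀ i j l, |v i j * v i l| ≤ 1 := by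
    intro i j l
    rw [abs_mul]
    have h1 := coord_abs_le hv i j
    have h2 := coord_abs_le hv i l
    nlinarith [abs_nonneg (v i j), abs_nonneg (v i l)]
  have hdiff : ∀ j l, |Mx v R j l| ≤ |Mx v G j l| + 2 := by
    intro j l
    have h1 := hMx j l
    have h2 : Mx v R j l = Mx v G j l - v h j * v h l - v h₂ j * v h₂ l := by linarith
    rw [h2]
    have h3 := abs_le.1 (hone h j l)
    have h4 := abs_le.1 (hone h₂ j l)
    have h5 := le_abs_self (Mx v G j l)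
    have h6 := neg_abs_le (Mx v G j l)
    rw [abs_le]
    constructor <;> linarith [h3.1, h3.2, h4.1, h4.2]
  have hmuMx : ∀ k, Mx v G k k = mu v G k := by
    intro k
    simp [Mx, mu, sq]
  have hdiag : ∀ k, mu v G k - 2 ≤ Mx v R k k := by
    intro k
    have h1 := hMx k k
    rw [hmuMx] at h1
    have h2 := abs_le.1 (hone h k k)
    have h3 := abs_le.1 (hone h₂ k k)
    linarith [h2.2, h3.2]
  have hmuc : ∀ k ∈ H, p.c ≤ mu v G k := fun k hk => (rich_mu hν htr ((hHmem k).1 hk)).1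
  have hD' : ∀ k ∈ H, mu v G k / 2 ≤ Mx v R k k := by
    intro k hk
    have h1 := hmuc k hk
    have h2 := hdiag k
    linarith
  have hD : ∀ k ∈ H, p.c / 2 ≤ Mx v R k k := by
    intro k hk
    have h1 := hmuc k hk
    have h2 := hD' k hk
    linarith
  have hYnn : 0 ≤ p.Δ + 2 := by
    have := p.Δ_nonneg
    linarith
  have hδ : 0 ≤ 25 * p.ε := by
    have := p.hε0
    positivity
  have hrow : ∀ k ∈ H, ∀ l ∈ H, k ≠ l →
      |Mx v R k l| / Mx v R l l ≤ 2 * (p.Δ + 2) / p.c + 2 * (25 * p.ε) / Real.sqrt p.c := by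
    intro k hk l hl hkl
    refine ratio_le hc0 (hmuc l hl) (hD' l hl) hYnn hδ ?_
    have h1 := horth k l hkl (rich_trk ((hHmem k).1 hk)) (rich_trk ((hHmem l).1 hl))
    have h2 := hdiff k l
    linarith
  have hτ0 : 0 ≤ 2 * (p.Δ + 2) / p.c + 2 * (25 * p.ε) / Real.sqrt p.c := by positivity
  have hτ : (d : ℝ) * (2 * (p.Δ + 2) / p.c + 2 * (25 * p.ε) / Real.sqrt p.c) ≤ 1 / 2 := p.hτ
  obtain ⟨f, w, hw2, hw, hfi, hf1, hf2, hf3⟩ := steer' v R H g b p.c _ hb0 hc0 hτ0 hD hrow hτ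
    (fun k hk => hg k ((hHmem k).1 hk))
  have hHcard : (H.card : ℝ) ≤ d := by
    have : H.card ≤ d := by
      simpa using Finset.card_le_univ H
    exact_mod_cast this
  refine ⟨f, fun k hk => hf2 k ((hHmem k).2 hk), ?_, ?_, ?_⟩
  · refine le_trans hf3 ?_
    exact p.hsteer
  · intro i
    rw [hfi i]
    calc |∑ k ∈ H, w k * v i k| ≤ ∑ k ∈ H, |w k * v i k| := abs_sum_le_sum_abs _ _
      _ ≤ ∑ k ∈ H, 4 * b / mu v G k := by
          refine sum_le_sum fun k hk => ?_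
          have h1 := hmuc k hk
          have hμ : 0 < mu v G k := by linarith
          have hM : 0 < Mx v R k k := by
            have := hD' k hk
            linarith
          rw [abs_mul]
          have h2 : |w k| ≤ 4 * b / mu v G k := by
            refine (hw2 k hk).trans ?_
            rw [div_le_div_iff₀ hM hμ]
            have := hD' k hk
            nlinarith
          have h3 := coord_abs_le hv i k
          have h4 : 0 ≤ 4 * b / mu v G k := by positivity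
          nlinarith [abs_nonneg (w k), abs_nonneg (v i k)]
  · intro j hj1 hj2 hj3
    rw [hf1 j]
    have hsc : 0 < Real.sqrt p.c := Real.sqrt_pos.2 hc0
    have hsj : Real.sqrt (mu v G j) ≤ Real.sqrt (5 / 2 * p.c) := Real.sqrt_le_sqrt hj3
    set T : ℝ := 4 * b / p.c * (p.Δ + 2 + 25 * p.ε * Real.sqrt (5 / 2 * p.c)) with hT
    have hTnn : 0 ≤ T := by positivity
    have hterm : ∀ k ∈ H, |w k * Mx v R j k| ≤ T := by
      intro k hk
      have hk' := (hHmem k).1 hk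
      have hjk : k ≠ j := by
        intro h0
        subst h0
        exact hk' hj1
      have h1 := horth k j hjk (rich_trk hk') hj2
      have h2 := hdiff j k
      have h3 : Mx v G j k = Mx v G k j := by
        simp [Mx, mul_comm]
      rw [h3] at h2
      rw [abs_mul]
      refine mul_le_mul (hw k hk) ?_ (abs_nonneg _) (by positivity)
      have h4 : 25 * p.ε * Real.sqrt (mu v G j) ≤ 25 * p.ε * Real.sqrt (5 / 2 * p.c) :=
        mul_le_mul_of_nonneg_left hsj hδ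
      linarith
    have hdT : (d : ℝ) * T ≤ 1 / (2 * b) := p.hdT
    calc |∑ k ∈ H, w k * Mx v R j k| ≤ ∑ k ∈ H, |w k * Mx v R j k| := abs_sum_le_sum_abs _ _
      _ ≤ ∑ k ∈ H, T := Finset.sum_le_sum hterm
      _ = (H.card : ℝ) * T := by simp
      _ ≤ (d : ℝ) * T := mul_le_mul_of_nonneg_right hHcard hTnn
      _ ≤ 1 / (2 * b) := hdT

/-- Rounding the half point with a small tilt. -/
lemma round_node' (hv : ∀ i, ∑ j, (v i j) ^ 2 ≤ 1) (L T : Finset (Fin d)) (hLT : L ⊆ T)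
    (wt : Fin d → ℕ) (hwt : ∀ a, 32 * (Zf L wt a).card ≤ a)
    (hTw : ∀ j ∈ T \ L, wt j ≤ (T \ L).card) (gf : ι → ℝ) (R : Finset ι) (f : ι → ℝ) (ε : ℝ)
    (hε0 : 0 ≤ ε) (hε : ε ≤ 1 / 2) (hf : ∑ i ∈ R, (f i) ^ 2 ≤ ε ^ 2) (pmax gmax : ℝ)
    (hpmax : 0 ≤ pmax) (hgmax : 0 ≤ gmax) (hp : ∀ i ∈ R, pm v L i ≤ pmax)
    (hg : ∀ i ∈ R, |gf i| ≤ gmax) (ζ : Fin d → ℝ) :
    ∃ (c : ι → ℝ) (R₁ R₂ : Finset ι), R₁ ∪ R₂ = R ∧ Disjoint R₁ R₂ ∧
      (∀ w : ι → ℝ, ∑ i ∈ R₁, w i = 1 / 2 * ∑ i ∈ R, w i + (∑ i ∈ R, f i * w i + dot w c)) ∧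
      (∀ w : ι → ℝ, ∑ i ∈ R₂, w i = 1 / 2 * ∑ i ∈ R, w i - (∑ i ∈ R, f i * w i + dot w c)) ∧
      (∀ j l, |dot (rowP v j l) c| ≤ (d : ℝ) ^ 2 + d + 3) ∧
      |dot (pm v L) c| ≤ 3 * pmax ∧ |dot gf c| ≤ 3 * gmax ∧
      (∀ B : Finset (Fin d), (∀ j ∈ B, j ∉ L) → (∀ j ∈ B, wt j ≤ B.card) →
        sqs B (ev v c) ≤ 8464 * (B.card : ℝ)) ∧
      nrm L (ev v c) ≤ 11 * Real.sqrt (∑ i ∈ R, pm v L i) ∧
      sqs T (ζ + ev v c) ≤ sqs T ζ + 103 * (∑ i ∈ R, pm v L i) + 8467 * ((T \ L).card : ℝ) := by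
  classical
  let t : ι → ℝ := fun i => if i ∈ R then 1 / 2 + f i else 0
  have hfi : ∀ i ∈ R, |f i| ≤ 1 / 2 := by
    intro i hi
    have h1 : (f i) ^ 2 ≤ ∑ i ∈ R, (f i) ^ 2 :=
      Finset.single_le_sum (f := fun i => (f i) ^ 2) (fun _ _ => sq_nonneg _) hi
    have h2 : (f i) ^ 2 ≤ (1 / 2) ^ 2 := by
      have : ε ^ 2 ≤ (1 / 2) ^ 2 := pow_le_pow_left₀ hε0 hε 2
      linarith
    exact abs_le_of_sq_le_sq' h2 (by norm_num) |> abs_le.2
  have ht : Box t := by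
    intro i
    by_cases hi : i ∈ R
    · have := abs_le.1 (hfi i hi)
      simp only [t, hi, if_true]
      constructor <;> linarith [this.1, this.2]
    · simp [t, hi]
  have hfrac : frac t ⊆ R := by
    intro i hi
    by_contra hiR
    have := (mem_frac.1 hi).1
    simp [t, hiR] at this
  obtain ⟨χ, h1, h2, h3, h4, h5, h6, h7, h8⟩ := rounding2 hv L T hLT wt hwt hTw gf ζ pmax gmax
    hpmax hgmax t ht (fun i hi => hp i (hfrac hi)) (fun i hi => hg i (hfrac hi))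
  have hE : ∑ i ∈ frac t, pm v L i ≤ ∑ i ∈ R, pm v L i :=
    Finset.sum_le_sum_of_subset_of_nonneg hfrac (fun i _ _ => pm_nonneg L i)
  have hc0 : ∀ i, i ∉ R → (χ - t) i = 0 := by
    intro i hi
    simp [h2 i (fun h => hi (hfrac h))]
  have hdot : ∀ w : ι → ℝ, dot w (χ - t) = ∑ i ∈ R, w i * (χ - t) i := by
    intro w
    unfold dot
    refine (Finset.sum_subset (Finset.subset_univ R) ?_).symm
    intro i _ hi
    simp [hc0 i hi]
  have hsum1 : ∀ w : ι → ℝ, ∑ i ∈ R.filter (fun i => χ i = 1), w i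
      = 1 / 2 * ∑ i ∈ R, w i + (∑ i ∈ R, f i * w i + dot w (χ - t)) := by
    intro w
    rw [hdot, Finset.sum_filter, Finset.mul_sum, ← Finset.sum_add_distrib,
      ← Finset.sum_add_distrib]
    refine Finset.sum_congr rfl fun i hi => ?_
    simp only [Pi.sub_apply, t, hi, if_true]
    rcases h1 i with h | h <;> simp [h] <;> ring
  refine ⟨χ - t, R.filter (fun i => χ i = 1), R.filter (fun i => ¬ χ i = 1), ?_, ?_, hsum1, ?_,
    h3, h4, h5, h6, ?_, ?_⟩
  · exact Finset.filter_union_filter_not_eq _ _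
  · exact Finset.disjoint_filter_filter_not _ _ _
  · intro w
    have h9 := Finset.sum_filter_add_sum_filter_not R (fun i => χ i = 1) w
    have h10 := hsum1 w
    linarith
  · exact le_trans h7 (mul_le_mul_of_nonneg_left (Real.sqrt_le_sqrt hE) (by positivity))
  · have : 103 * ∑ i ∈ frac t, pm v L i ≤ 103 * ∑ i ∈ R, pm v L i :=
      mul_le_mul_of_nonneg_left hE (by norm_num)
    linarith

lemma sqs_split {L T : Finset (Fin d)} (hLT : L ⊆ T) (a : Fin d → ℝ) :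
    sqs T a = sqs L a + sqs (T \ L) a := by
  unfold sqs
  rw [add_comm]
  exact (Finset.sum_sdiff hLT).symm

lemma nrm_split_le {L T : Finset (Fin d)} (hLT : L ⊆ T) (δ : Fin d → ℝ) :
    nrm T δ ≤ nrm L δ + nrm (T \ L) δ := by
  have h0 := nrm_nonneg L δ
  have h1 := nrm_nonneg (T \ L) δ
  refine Real.sqrt_le_iff.2 ⟨add_nonneg h0 h1, ?_⟩
  rw [sqs_split hLT δ]
  have h3 := nrm_sq L δ
  have h4 := nrm_sq (T \ L) δ
  have h5 := mul_nonneg h0 h1
  rw [add_sq, h3, h4]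
  linarith

/-- Bounds for a small perturbation outside the block. -/
lemma delta_bounds {L T : Finset (Fin d)} (hLT : L ⊆ T) (δ : Fin d → ℝ) (A bb : ℝ) (hA : 0 ≤ A)
    (hb1 : 1 ≤ bb) (hδ : nrm L δ ≤ A) (hδB : ∀ j ∈ T \ L, |δ j| ≤ 1 / (2 * bb)) :
    nrm T δ ≤ A + ((T \ L).card : ℝ) / (2 * bb) ∧ sqs T δ ≤ A ^ 2 + ((T \ L).card : ℝ) := by
  have hbpos : 0 < bb := by linarith
  have hM0 : (0 : ℝ) ≤ ((T \ L).card : ℝ) := Nat.cast_nonneg _
  have hsδB : sqs (T \ L) δ ≤ ((T \ L).card : ℝ) / (4 * bb ^ 2) := by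
    unfold sqs
    calc ∑ j ∈ T \ L, (δ j) ^ 2 ≤ ∑ j ∈ T \ L, (1 / (2 * bb)) ^ 2 := by
          refine Finset.sum_le_sum fun j hj => ?_
          rw [← sq_abs]
          exact pow_le_pow_left₀ (abs_nonneg _) (hδB j hj) 2
      _ = ((T \ L).card : ℝ) / (4 * bb ^ 2) := by
          simp only [Finset.sum_const, nsmul_eq_mul]
          field_simp
          ring
  have hnδB : nrm (T \ L) δ ≤ ((T \ L).card : ℝ) / (2 * bb) := by
    refine Real.sqrt_le_iff.2 ⟨by positivity, hsδB.trans ?_⟩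
    by_cases hm : (T \ L).card = 0
    · simp [hm]
    · have hm1 : (1 : ℝ) ≤ ((T \ L).card : ℝ) := by
        exact_mod_cast Nat.one_le_iff_ne_zero.2 hm
      rw [div_pow, div_le_div_iff₀ (by positivity) (by positivity)]
      have h8 : ((T \ L).card : ℝ) * (2 * bb) ^ 2 = ((T \ L).card : ℝ) * (4 * bb ^ 2) := by ring
      rw [h8]
      have h9 : ((T \ L).card : ℝ) ≤ ((T \ L).card : ℝ) ^ 2 := by nlinarith
      exact mul_le_mul_of_nonneg_right h9 (by positivity)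
  constructor
  · have h1 := nrm_split_le hLT δ
    linarith
  · rw [sqs_split hLT δ]
    have h4 : sqs L δ ≤ A ^ 2 := by
      rw [← nrm_sq]
      exact pow_le_pow_left₀ (nrm_nonneg _ _) hδ 2
    have h5 : ((T \ L).card : ℝ) / (4 * bb ^ 2) ≤ ((T \ L).card : ℝ) := by
      rw [div_le_iff₀ (by positivity)]
      have h6 : 1 ≤ 4 * bb ^ 2 := by nlinarith
      nlinarith
    linarith

/-- Expansion of the squared length of the tilted midpoint. -/
lemma mid_sqs' (L T : Finset (Fin d)) (hLT : L ⊆ T) (x y vh vh₂ vea veb sE δ : Fin d → ℝ)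
    (Bb ε a₂ bb : ℝ) (hBb : 0 ≤ Bb) (hε : 0 ≤ ε) (ha₂ : 0 ≤ a₂) (hbb : Real.sqrt Bb + 1 = bb)
    (hyx : ∀ j, y j - x j = vh j + sE j)
    (he : (vea = vh ∧ veb = vh₂) ∨ (vea = vh₂ ∧ veb = vh))
    (hsign : ipr T (fun j => (x j + y j) / 2) (fun j => vea j - veb j) ≤ 0)
    (hx : sqs T x ≤ Bb) (hy : sqs T y ≤ Bb) (hr1 : nrm T vh ≤ 1) (hq1 : nrm T vh₂ ≤ 1)
    (hu1 : ∀ j, |(vea j - veb j) / 2| ≤ 1)
    (hδ : nrm L δ ≤ ε * a₂) (hδB : ∀ j ∈ T \ L, |δ j| ≤ 1 / (2 * bb)) :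
    sqs T ((fun j => (x j + y j) / 2) + (fun j => (vea j - veb j) / 2) + δ)
      ≤ 1 / 2 * (sqs T x + sqs T y) + (1 / 2 * nrm L vh * nrm L vh₂ + 1 / 4 * (nrm L vh₂) ^ 2
        + 1 / 2 * nrm L vh * nrm L sE - 1 / 4 * (nrm L sE) ^ 2
        + 2 * (Real.sqrt Bb + 1) * ε * a₂ + ε ^ 2 * a₂ ^ 2) + 3 * ((T \ L).card : ℝ) := by
  set avg : Fin d → ℝ := fun j => (x j + y j) / 2 with havg
  set u : Fin d → ℝ := fun j => (vea j - veb j) / 2 with hu
  set w : Fin d → ℝ := fun j => y j - x j with hw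
  have hA : sqs T avg = 1 / 2 * (sqs T x + sqs T y) - 1 / 4 * sqs T w := by
    simp only [sqs, havg, hw, Finset.mul_sum, ← Finset.sum_add_distrib, ← Finset.sum_sub_distrib]
    exact Finset.sum_congr rfl fun j _ => by ring
  have hw0 := sqs_nonneg T w
  have hwL : sqs L w ≤ sqs T w := by
    rw [sqs_split hLT w]
    have := sqs_nonneg (T \ L) w
    linarith
  have hB : nrm T avg ≤ Real.sqrt Bb := Real.sqrt_le_sqrt (by linarith)
  have hnU : ∀ B : Finset (Fin d), nrm B u ≤ 1 / 2 * (nrm B vh + nrm B vh₂) := by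
    intro B
    have h1 : u = (fun j => (1 / 2 : ℝ) * vea j) + (fun j => (-(1 / 2) : ℝ) * veb j) := by
      funext j
      simp only [hu, Pi.add_apply]
      ring
    have h2 := nrm_add_le B (fun j => (1 / 2 : ℝ) * vea j) (fun j => (-(1 / 2) : ℝ) * veb j)
    rw [← h1, nrm_scale, nrm_scale] at h2
    have h3 : |(1 / 2 : ℝ)| = 1 / 2 := by norm_num
    have h4 : |(-(1 / 2) : ℝ)| = 1 / 2 := by norm_num
    rw [h3, h4] at h2
    rcases he with ⟨h5, h6⟩ | ⟨h5, h6⟩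
    · rw [h5, h6] at h2
      linarith
    · rw [h5, h6] at h2
      linarith
  have hsU : sqs L u ≤ 1 / 4 * (nrm L vh + nrm L vh₂) ^ 2 := by
    rw [← nrm_sq]
    have h1 := pow_le_pow_left₀ (nrm_nonneg L u) (hnU L) 2
    have h2 : (1 / 2 * (nrm L vh + nrm L vh₂)) ^ 2 = 1 / 4 * (nrm L vh + nrm L vh₂) ^ 2 := by ring
    linarith
  have hsUB : sqs (T \ L) u ≤ ((T \ L).card : ℝ) := by
    unfold sqs
    calc ∑ j ∈ T \ L, (u j) ^ 2 ≤ ∑ j ∈ T \ L, (1 : ℝ) := by
          refine Finset.sum_le_sum fun j _ => ?_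
          have h1 : |u j| ≤ 1 := hu1 j
          rw [← sq_abs]
          have h2 := abs_nonneg (u j)
          nlinarith
      _ = _ := by simp
  have hwS : (nrm L sE - nrm L vh) ^ 2 ≤ sqs L w := by
    rw [← nrm_sq]
    have h1 : sE = w + (fun j => (-1 : ℝ) * vh j) := by
      funext j
      have := hyx j
      simp only [hw, Pi.add_apply]
      linarith
    have h2 : vh = w + (fun j => (-1 : ℝ) * sE j) := by
      funext j
      have := hyx j
      simp only [hw, Pi.add_apply]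
      linarith
    have h3 := nrm_add_le L w (fun j => (-1 : ℝ) * vh j)
    have h4 := nrm_add_le L w (fun j => (-1 : ℝ) * sE j)
    rw [← h1, nrm_scale] at h3
    rw [← h2, nrm_scale] at h4
    simp only [abs_neg, abs_one, one_mul] at h3 h4
    have h5 : |nrm L sE - nrm L vh| ≤ nrm L w := by
      rw [abs_le]
      constructor <;> linarith
    calc (nrm L sE - nrm L vh) ^ 2 = |nrm L sE - nrm L vh| ^ 2 := (sq_abs _).symm
      _ ≤ _ := pow_le_pow_left₀ (abs_nonneg _) h5 2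
  have hipr : ipr T avg u = 1 / 2 * ipr T avg (fun j => vea j - veb j) := by
    simp only [ipr, hu, Finset.mul_sum]
    exact Finset.sum_congr rfl fun j _ => by ring
  have h1 : sqs T (avg + u) ≤ sqs T avg + sqs T u := by
    rw [sqs_add, hipr]
    linarith
  have hnUT : nrm T u ≤ 1 := by
    have := hnU T
    linarith
  have hnAU : nrm T (avg + u) ≤ Real.sqrt Bb + 1 := by
    have h2 := nrm_add_le T avg u
    linarith
  have hb1 : 1 ≤ bb := by
    rw [← hbb]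
    have := Real.sqrt_nonneg Bb
    linarith
  have hbpos : 0 < bb := by linarith
  obtain ⟨hnδT, h3⟩ := delta_bounds hLT δ (ε * a₂) bb (mul_nonneg hε ha₂) hb1 hδ hδB
  have hM0 : (0 : ℝ) ≤ ((T \ L).card : ℝ) := Nat.cast_nonneg _
  have h2 : ipr T (avg + u) δ ≤ (Real.sqrt Bb + 1) * (ε * a₂) + ((T \ L).card : ℝ) / 2 := by
    have h3 := ipr_le T (avg + u) δ
    have h4 : nrm T (avg + u) * nrm T δ ≤ bb * (ε * a₂ + ((T \ L).card : ℝ) / (2 * bb)) := by
      have hnAU' : nrm T (avg + u) ≤ bb := by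
        rw [← hbb]
        exact hnAU
      refine mul_le_mul hnAU' hnδT (nrm_nonneg _ _) (by positivity)
    have h5 : bb * (ε * a₂ + ((T \ L).card : ℝ) / (2 * bb))
        = bb * (ε * a₂) + ((T \ L).card : ℝ) / 2 := by
      field_simp
    rw [hbb]
    linarith
  have hsplitu := sqs_split hLT u
  have hexp := sqs_add T (avg + u) δ
  have hkey : -(1 / 4) * (nrm L sE - nrm L vh) ^ 2 + 1 / 4 * (nrm L vh + nrm L vh₂) ^ 2
      = 1 / 2 * nrm L vh * nrm L vh₂ + 1 / 4 * (nrm L vh₂) ^ 2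
        + 1 / 2 * nrm L vh * nrm L sE - 1 / 4 * (nrm L sE) ^ 2 := by ring
  have hε2 : (ε * a₂) ^ 2 = ε ^ 2 * a₂ ^ 2 := by ring
  have hbb2 : (Real.sqrt Bb + 1) * (ε * a₂) = (Real.sqrt Bb + 1) * ε * a₂ := by ring
  rw [hε2] at h3
  rw [hbb2] at h2
  rw [hexp]
  linarith

end Vale.Agent.Lib.P262C
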