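import Vale.Agent.Lib.P262C.Split

/-!
# The data of a split and its existence
-/

open Finset
open Vale.Agent.Lib.P262B

namespace Vale.Agent.Lib.P262C

set_option linter.unusedSectionVars false
set_option linter.unusedSimpArgs false
set_option linter.unusedVariables false

variable {ι : Type*} [Fintype ι] [DecidableEq ι] {d : ℕ}

/-- The energy functional of the band. -/
noncomputable def gBand (v : ι → Fin d → ℝ) (G : Finset ι) (Bd : Finset (Fin d)) : ι → ℝ :=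
  fun i => ∑ j ∈ Bd, kap (mu v G j / 2) * (v i j) ^ 2

lemma mu_nonneg (v : ι → Fin d → ℝ) (G : Finset ι) (j : Fin d) : 0 ≤ mu v G j :=
  Finset.sum_nonneg fun _ _ => sq_nonneg _

lemma kap_le' (y : ℝ) : kap y ≤ 42500 / 64 := by
  unfold kap
  split_ifs with h1
  · exact le_rfl
  · push Not at h1
    exact div_le_div_of_nonneg_left (by norm_num) (by norm_num) h1.le

lemma kap_mul' {μ : ℝ} (hμ : 0 ≤ μ) : kap (μ / 2) * μ ≤ 85000 := by
  rcases hμ.eq_or_lt with h | h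
  · rw [← h]
    norm_num
  · exact kap_mul h

section Band

variable {v : ι → Fin d → ℝ}

lemma gBand_nonneg (G : Finset ι) (Bd : Finset (Fin d)) (i : ι) : 0 ≤ gBand v G Bd i :=
  Finset.sum_nonneg fun j _ =>
    mul_nonneg (kap_nonneg (by have := mu_nonneg v G j; positivity)) (sq_nonneg _)

lemma gBand_le (hv : ∀ i, ∑ j, (v i j) ^ 2 ≤ 1) (G : Finset ι) (Bd : Finset (Fin d)) (i : ι) :
    gBand v G Bd i ≤ 42500 / 64 := by
  calc gBand v G Bd i ≤ ∑ j ∈ Bd, 42500 / 64 * (v i j) ^ 2 :=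
        Finset.sum_le_sum fun j _ => mul_le_mul_of_nonneg_right (kap_le' _) (sq_nonneg _)
    _ = 42500 / 64 * ∑ j ∈ Bd, (v i j) ^ 2 := by rw [Finset.mul_sum]
    _ ≤ 42500 / 64 * ∑ j, (v i j) ^ 2 := by
        refine mul_le_mul_of_nonneg_left ?_ (by norm_num)
        exact Finset.sum_le_sum_of_subset_of_nonneg (Finset.subset_univ _)
          (fun _ _ _ => sq_nonneg _)
    _ ≤ 42500 / 64 * 1 := mul_le_mul_of_nonneg_left (hv i) (by norm_num)
    _ = 42500 / 64 := by norm_num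

lemma gBand_card (hv : ∀ i, ∑ j, (v i j) ^ 2 ≤ 1) (G : Finset ι) (Bd : Finset (Fin d)) (i : ι) :
    gBand v G Bd i ≤ 42500 / 64 * (Bd.card : ℝ) := by
  by_cases h : Bd.card = 0
  · have h1 : Bd = ∅ := Finset.card_eq_zero.1 h
    simp [gBand, h1]
  · have h1 : (1 : ℝ) ≤ (Bd.card : ℝ) := by
      exact_mod_cast Nat.one_le_iff_ne_zero.2 h
    have h2 := gBand_le hv G Bd i
    nlinarith

lemma gBand_sum {G R : Finset ι} (hRG : R ⊆ G) (Bd : Finset (Fin d)) :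
    ∑ i ∈ R, gBand v G Bd i ≤ 85000 * (Bd.card : ℝ) := by
  unfold gBand
  rw [Finset.sum_comm]
  calc ∑ j ∈ Bd, ∑ i ∈ R, kap (mu v G j / 2) * (v i j) ^ 2 ≤ ∑ j ∈ Bd, (85000 : ℝ) := by
        refine Finset.sum_le_sum fun j _ => ?_
        rw [← Finset.mul_sum]
        have h0 := mu_nonneg v G j
        have h1 : ∑ i ∈ R, (v i j) ^ 2 ≤ mu v G j :=
          Finset.sum_le_sum_of_subset_of_nonneg hRG (fun _ _ _ => sq_nonneg _)
        have h2 : 0 ≤ kap (mu v G j / 2) := kap_nonneg (by positivity)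
        exact (mul_le_mul_of_nonneg_left h1 h2).trans (kap_mul' h0)
    _ = 85000 * (Bd.card : ℝ) := by
        simp
        ring

lemma gBand_sq_sum (hv : ∀ i, ∑ j, (v i j) ^ 2 ≤ 1) {G R : Finset ι} (hRG : R ⊆ G)
    (Bd : Finset (Fin d)) :
    ∑ i ∈ R, (gBand v G Bd i) ^ 2 ≤ 42500 / 64 * (85000 * (Bd.card : ℝ)) := by
  calc ∑ i ∈ R, (gBand v G Bd i) ^ 2 ≤ ∑ i ∈ R, 42500 / 64 * gBand v G Bd i := by
        refine Finset.sum_le_sum fun i _ => ?_
        rw [sq]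
        exact mul_le_mul_of_nonneg_right (gBand_le hv G Bd i) (gBand_nonneg G Bd i)
    _ = 42500 / 64 * ∑ i ∈ R, gBand v G Bd i := by rw [Finset.mul_sum]
    _ ≤ _ := mul_le_mul_of_nonneg_left (gBand_sum hRG Bd) (by norm_num)

lemma sqrt_band_le (m : ℕ) : Real.sqrt (42500 / 64 * (85000 * (m : ℝ))) ≤ 7600 * (m : ℝ) := by
  refine Real.sqrt_le_iff.2 ⟨by positivity, ?_⟩
  have h1 : (m : ℝ) ≤ (m : ℝ) ^ 2 := by
    rcases Nat.eq_zero_or_pos m with h | h
    · simp [h]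
    · have h2 : (1 : ℝ) ≤ (m : ℝ) := by
        exact_mod_cast h
      nlinarith
  have h2 : (0 : ℝ) ≤ (m : ℝ) := Nat.cast_nonneg _
  nlinarith

end Band

variable (p : Pr d) (v : ι → Fin d → ℝ) (ν : Fin d → ℝ)

/-- The data of a split at a node. -/
structure SplitData (ℓ : ℕ) (L : Finset (Fin d)) (G : Finset ι) (x y : Fin d → ℝ) (h h₂ ea eb : ι)
    (R R₁ R₂ : Finset ι) (D : (ι → ℝ) → ℝ) (m : Fin d → ℝ) (φ : ℝ) (e : Fin d → ℝ) : Prop where
  hG : G = insert h (insert h₂ R)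
  hh : h ∉ insert h₂ R
  hh₂ : h₂ ∉ R
  hR2 : ∀ i ∈ R, pm v L i ≤ pm v L h₂
  hh₂h : pm v L h₂ ≤ pm v L h
  he : (ea = h ∧ eb = h₂) ∨ (ea = h₂ ∧ eb = h)
  hU : R₁ ∪ R₂ = R
  hdisj : Disjoint R₁ R₂
  hs1 : ∀ w : ι → ℝ, ∑ i ∈ R₁, w i = 1 / 2 * ∑ i ∈ R, w i + D w
  hs2 : ∀ w : ι → ℝ, ∑ i ∈ R₂, w i = 1 / 2 * ∑ i ∈ R, w i - D w
  hm : ∀ j, m j = x j + v ea j + ∑ i ∈ R₁, v i j
  hy2 : ∀ j, y j = m j + v eb j + ∑ i ∈ R₂, v i j
  hφ0 : 0 ≤ φ
  hφ : φ ≤ 6 * p.b * (tau p ν (ℓ + 1) - tau p ν ℓ)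
  bE : ∀ j, |D (rowE v j)| ≤ φ * mu v G j + ((d : ℝ) ^ 2 + d + 3)
  bO : ∀ j l, |D (rowP v j l)| ≤ p.ε * Real.sqrt (mu v G l) + ((d : ℝ) ^ 2 + d + 3)
  bPm : |D (pm v L)| ≤ p.ε * Real.sqrt (pm v L h₂ * ∑ i ∈ R, pm v L i) + 3 * pm v L h₂
  bN : nrm L (fun j => D (rowC v j)) ≤ (p.ε + 11) * Real.sqrt (∑ i ∈ R, pm v L i)
  bG : |D (gBand v G (Ts p ν ℓ \ L))| ≤ 2069 * ((Ts p ν ℓ \ L).card : ℝ)
  me : ∀ j, j ∉ Ts p ν ℓ → m j = e j
  bl : ∀ s, ℓ ≤ s → sqs (Ts p ν s \ L) e ≤ 8464 * ((Ts p ν s \ L).card : ℝ)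
  mP : sqs (Ts p ν ℓ) m ≤ 1 / 2 * (sqs (Ts p ν ℓ) x + sqs (Ts p ν ℓ) y)
      + (1 / 2 * Real.sqrt (pm v L h) * Real.sqrt (pm v L h₂) + 1 / 4 * (Real.sqrt (pm v L h₂)) ^ 2
        + 1 / 2 * Real.sqrt (pm v L h) * Sp v L G h - 1 / 4 * (Sp v L G h) ^ 2
        + 2 * (Real.sqrt p.B + 1) * p.ε * Real.sqrt (∑ i ∈ R, pm v L i)
        + (103 + p.ε ^ 2) * (Real.sqrt (∑ i ∈ R, pm v L i)) ^ 2)
      + 8470 * ((Ts p ν ℓ \ L).card : ℝ)

variable {p v ν}

/-- The sum which bounds the tilt. -/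
lemma phi_bound (hν : ∀ j, 0 ≤ ν j) {ℓ : ℕ} {G : Finset ι} (htr : TInv p v ν ℓ G) :
    ∑ k ∈ univ \ Ts p ν ℓ, 4 * p.b / mu v G k ≤ 6 * p.b * (tau p ν (ℓ + 1) - tau p ν ℓ) := by
  have hb := p.b_pos
  have hc := p.c_pos
  have h1 : ∀ k ∈ univ \ Ts p ν ℓ, 4 * p.b / mu v G k
      ≤ 6 * p.b * (tauk p ν (ℓ + 1) k - tauk p ν ℓ k) := by
    intro k hk
    have hk' : k ∉ Ts p ν ℓ := (Finset.mem_sdiff.1 hk).2
    have hrich : (2 : ℝ) ^ (ℓ + 1) * p.c ≤ ν k := by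
      simpa [Ts] using hk'
    rw [tauk_rich hrich]
    obtain ⟨h2, h3⟩ := rich_mu hν htr hk'
    have hμ : 0 < mu v G k := by linarith
    have hνk : 0 < ν k := lt_of_lt_of_le (by positivity) hrich
    rw [div_le_iff₀ hμ]
    have h4 : 6 * p.b * ((2 : ℝ) ^ ℓ / ν k) * mu v G k
        = 6 * p.b * ((2 : ℝ) ^ ℓ * mu v G k / ν k) := by ring
    rw [h4]
    have h5 : 3 / 4 ≤ (2 : ℝ) ^ ℓ * mu v G k / ν k := by
      rw [le_div_iff₀ hνk]
      exact h3
    nlinarith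
  calc ∑ k ∈ univ \ Ts p ν ℓ, 4 * p.b / mu v G k
      ≤ ∑ k ∈ univ \ Ts p ν ℓ, 6 * p.b * (tauk p ν (ℓ + 1) k - tauk p ν ℓ k) :=
        Finset.sum_le_sum h1
    _ ≤ ∑ k, 6 * p.b * (tauk p ν (ℓ + 1) k - tauk p ν ℓ k) := by
        refine Finset.sum_le_sum_of_subset_of_nonneg (Finset.subset_univ _) ?_
        intro k _ _
        have := tauk_mono (p := p) hν ℓ k
        exact mul_nonneg (by positivity) (by linarith)
    _ = 6 * p.b * (tau p ν (ℓ + 1) - tau p ν ℓ) := by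
        unfold tau
        rw [← Finset.sum_sub_distrib, Finset.mul_sum]

/-- Existence of a split at a node. -/
lemma exists_split' (hv : ∀ i, ∑ j, (v i j) ^ 2 ≤ 1) (hν : ∀ j, 0 ≤ ν j) {ℓ : ℕ}
    {L : Finset (Fin d)} {G : Finset ι} {x y : Fin d → ℝ} {h : ι}
    (hy : y = x + sg v G) (horth : OInv p v ν ℓ G) (htr : TInv p v ν ℓ G) (hun : UInv p v ν ℓ G)
    (hLT : L ⊆ Ts p ν ℓ) (htop : Top v L G h) (hxB : sqs univ x ≤ p.B) (hyB : sqs univ y ≤ p.B)
    (hcard : 2 ≤ G.card) :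
    ∃ h₂ ea eb R R₁ R₂ D m φ e, SplitData p v ν ℓ L G x y h h₂ ea eb R R₁ R₂ D m φ e := by
  classical
  have hne : (G.erase h).Nonempty := by
    rw [← Finset.card_pos, Finset.card_erase_of_mem htop.1]
    omega
  obtain ⟨h₂, hh₂mem, hh₂max⟩ := Finset.exists_max_image (G.erase h) (pm v L) hne
  set R := (G.erase h).erase h₂ with hR
  have hG : G = insert h (insert h₂ R) := by
    rw [hR, Finset.insert_erase hh₂mem, Finset.insert_erase htop.1]
  have hh₂R : h₂ ∉ R := Finset.notMem_erase _ _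
  have hhne : h ∉ insert h₂ R := by
    rw [hR, Finset.insert_erase hh₂mem]
    exact Finset.notMem_erase _ _
  have hRG : R ⊆ G := (erase_subset _ _).trans (erase_subset _ _)
  have hR2 : ∀ i ∈ R, pm v L i ≤ pm v L h₂ := fun i hi => hh₂max i (Finset.mem_of_mem_erase hi)
  have hh₂h : pm v L h₂ ≤ pm v L h := htop.2 h₂ (Finset.mem_of_mem_erase hh₂mem)
  have hε0 := p.hε0
  have hB0 := p.hB0
  set T : Finset (Fin d) := Ts p ν ℓ with hT
  set avg : Fin d → ℝ := fun j => (x j + y j) / 2 with havg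
  obtain ⟨ea, eb, he, hsign⟩ : ∃ ea eb, ((ea = h ∧ eb = h₂) ∨ (ea = h₂ ∧ eb = h)) ∧
      ipr T avg (fun j => v ea j - v eb j) ≤ 0 := by
    by_cases hs : ipr T avg (fun j => v h j - v h₂ j) ≤ 0
    · exact ⟨h, h₂, Or.inl ⟨rfl, rfl⟩, hs⟩
    · refine ⟨h₂, h, Or.inr ⟨rfl, rfl⟩, ?_⟩
      have h1 : ipr T avg (fun j => v h₂ j - v h j) = - ipr T avg (fun j => v h j - v h₂ j) := by
        unfold ipr
        rw [← Finset.sum_neg_distrib]
        exact sum_congr rfl fun j _ => by ring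
      rw [h1]
      push Not at hs
      linarith
  set u : Fin d → ℝ := fun j => (v ea j - v eb j) / 2 with hu
  set g : Fin d → ℝ := fun k => -(avg k + u k) with hgdef
  have hu1 : ∀ j, |u j| ≤ 1 := by
    intro j
    have h1 := abs_le.1 (coord_abs_le hv ea j)
    have h2 := abs_le.1 (coord_abs_le hv eb j)
    simp only [hu]
    rw [abs_le]
    constructor <;> linarith [h1.1, h1.2, h2.1, h2.2]
  have hcoord : ∀ (z : Fin d → ℝ), sqs univ z ≤ p.B → ∀ k, |z k| ≤ Real.sqrt p.B := by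
    intro z hz k
    refine Real.le_sqrt_of_sq_le ?_
    rw [sq_abs]
    refine le_trans ?_ hz
    exact Finset.single_le_sum (f := fun j => (z j) ^ 2) (fun _ _ => sq_nonneg _) (Finset.mem_univ k)
  have hg : ∀ k, k ∉ T → |g k| ≤ p.b := by
    intro k _
    have h1 := abs_le.1 (hcoord x hxB k)
    have h2 := abs_le.1 (hcoord y hyB k)
    have h3 := abs_le.1 (hu1 k)
    have h4 : p.b = Real.sqrt p.B + 1 := rfl
    rw [h4]
    simp only [hgdef, havg]
    rw [abs_le]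
    constructor <;> linarith [h1.1, h1.2, h2.1, h2.2, h3.1, h3.2]
  obtain ⟨f, hf1, hf2, hf3, hf4⟩ := steer_node' hv hν hG hhne hh₂R horth htr g hg
  set δ : Fin d → ℝ := fun j => ∑ i ∈ R, f i * v i j with hδ
  set ζ : Fin d → ℝ := avg + u + δ with hζ
  set gf : ι → ℝ := gBand v G (T \ L) with hgf
  have hgf_abs : ∀ i ∈ R, |gf i| ≤ 42500 / 64 * ((T \ L).card : ℝ) := by
    intro i _
    rw [abs_of_nonneg (gBand_nonneg _ _ _)]
    exact gBand_card hv _ _ _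
  obtain ⟨c, R₁, R₂, hU, hdisj, hs1, hs2, h1, h2, h3, h4, h5, h6⟩ := round_node' hv L T hLT
    (wtf ν L) (wtf_card L) (wtf_le L ℓ) gf R f p.ε hε0 p.ε_half hf2 (pm v L h₂)
    (42500 / 64 * ((T \ L).card : ℝ)) (pm_nonneg L h₂) (mul_nonneg (by norm_num) (Nat.cast_nonneg _)) hR2 hgf_abs ζ
  set D : (ι → ℝ) → ℝ := fun w => ∑ i ∈ R, f i * w i + dot w c with hD
  set m : Fin d → ℝ := fun j => x j + v ea j + ∑ i ∈ R₁, v i j with hm
  set E2 : ℝ := ∑ i ∈ R, pm v L i with hE2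
  have hE20 : 0 ≤ E2 := Finset.sum_nonneg fun i _ => pm_nonneg L i
  have hsG : ∀ j, sg v G j = v h j + (v h₂ j + ∑ i ∈ R, v i j) := fun j =>
    sum_decomp hG hhne hh₂R (fun i => v i j)
  have hsplitv : ∀ j, v ea j + v eb j = v h j + v h₂ j := by
    intro j
    rcases he with ⟨h7, h8⟩ | ⟨h7, h8⟩ <;> rw [h7, h8] <;> ring
  have hmz : ∀ j, m j = avg j + u j + δ j + dot (rowC v j) c := by
    intro j
    have h7 : ∑ i ∈ R₁, v i j = 1 / 2 * ∑ i ∈ R, v i j + (δ j + dot (rowC v j) c) :=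
      hs1 (rowC v j)
    have h8 : y j = x j + sg v G j := by
      rw [hy]
      rfl
    have h9 := hsG j
    have h10 := hsplitv j
    change x j + v ea j + ∑ i ∈ R₁, v i j
      = (x j + y j) / 2 + (v ea j - v eb j) / 2 + δ j + dot (rowC v j) c
    rw [h7, h8]
    linarith
  have hmζ : m = ζ + ev v c := by
    funext j
    rw [hmz j]
    simp [hζ, ev]
  have hfsum : ∀ (w : ι → ℝ) (M : ℝ), ∑ i ∈ R, (w i) ^ 2 ≤ M →
      |∑ i ∈ R, f i * w i| ≤ p.ε * Real.sqrt M := by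
    intro w M hM
    refine le_trans (abs_sum_mul_le hε0 hf2) ?_
    exact mul_le_mul_of_nonneg_left (Real.sqrt_le_sqrt hM) hε0
  have hmuR : ∀ l, ∑ i ∈ R, (v i l) ^ 2 ≤ mu v G l := fun l =>
    Finset.sum_le_sum_of_subset_of_nonneg hRG (fun _ _ _ => sq_nonneg _)
  have hδnrm : nrm L δ ≤ p.ε * Real.sqrt E2 := by
    have h7 : sqs L δ ≤ p.ε ^ 2 * E2 := by
      have h8 : E2 = ∑ j ∈ L, ∑ i ∈ R, (v i j) ^ 2 := by
        rw [hE2, Finset.sum_comm]
        rfl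
      rw [h8, Finset.mul_sum]
      refine Finset.sum_le_sum fun j _ => ?_
      have h9 := abs_sum_mul_le (w := fun i => v i j) hε0 hf2
      have h10 : (∑ i ∈ R, f i * v i j) ^ 2 ≤ (p.ε * Real.sqrt (∑ i ∈ R, (v i j) ^ 2)) ^ 2 := by
        rw [← sq_abs]
        exact pow_le_pow_left₀ (abs_nonneg _) h9 2
      rw [mul_pow, Real.sq_sqrt (Finset.sum_nonneg fun _ _ => sq_nonneg _)] at h10
      exact h10
    calc nrm L δ ≤ Real.sqrt (p.ε ^ 2 * E2) := Real.sqrt_le_sqrt h7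
      _ = p.ε * Real.sqrt E2 := by
          rw [Real.sqrt_mul (sq_nonneg _), Real.sqrt_sq hε0]
  have hδB : ∀ j ∈ T \ L, |δ j| ≤ 1 / (2 * p.b) := by
    intro j hj
    have hj1 : j ∈ T := (Finset.mem_sdiff.1 hj).1
    by_cases ht : Trk p ν ℓ j
    · exact hf4 j hj1 ht (poor_mu hν htr hun hj1)
    · have h7 : |δ j| ≤ p.ε * Real.sqrt (∑ i ∈ R, (v i j) ^ 2) := hfsum (fun i => v i j) _ le_rfl
      have h8 : ∑ i ∈ R, (v i j) ^ 2 ≤ 5 / 2 * p.Lp := (hmuR j).trans (hun j ht)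
      have h9 : p.ε * Real.sqrt (∑ i ∈ R, (v i j) ^ 2) ≤ p.ε * Real.sqrt (5 / 2 * p.Lp) :=
        mul_le_mul_of_nonneg_left (Real.sqrt_le_sqrt h8) hε0
      exact h7.trans (h9.trans p.hdU)
  have hsqs_sub : ∀ z : Fin d → ℝ, sqs univ z ≤ p.B → sqs T z ≤ p.B := by
    intro z hz
    refine le_trans ?_ hz
    exact Finset.sum_le_sum_of_subset_of_nonneg (Finset.subset_univ _) (fun _ _ _ => sq_nonneg _)
  refine ⟨h₂, ea, eb, R, R₁, R₂, D, m, ∑ k ∈ univ \ T, 4 * p.b / mu v G k, ev v c, ?_⟩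
  refine ⟨hG, hhne, hh₂R, hR2, hh₂h, he, hU, hdisj, hs1, hs2, fun j => rfl, ?_, ?_, ?_, ?_, ?_, ?_,
    ?_, ?_, ?_, ?_, ?_⟩
  · -- the second part reaches y
    intro j
    have h7 : ∑ i ∈ R₁, v i j = 1 / 2 * ∑ i ∈ R, v i j + (δ j + dot (rowC v j) c) :=
      hs1 (rowC v j)
    have h8 : ∑ i ∈ R₂, v i j = 1 / 2 * ∑ i ∈ R, v i j - (δ j + dot (rowC v j) c) :=
      hs2 (rowC v j)
    have h9 : y j = x j + sg v G j := by
      rw [hy]
      rfl
    have h10 := hsG j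
    have h11 := hsplitv j
    change y j = x j + v ea j + ∑ i ∈ R₁, v i j + v eb j + ∑ i ∈ R₂, v i j
    linarith
  · -- the sum is nonnegative
    refine Finset.sum_nonneg fun k _ => ?_
    have h7 := mu_nonneg v G k
    have h8 := p.b_pos
    positivity
  · exact phi_bound hν htr
  · -- energies
    intro j
    have h7 : |∑ i ∈ R, f i * rowE v j i|
        ≤ (∑ k ∈ univ \ T, 4 * p.b / mu v G k) * mu v G j := by
      calc |∑ i ∈ R, f i * rowE v j i| ≤ ∑ i ∈ R, |f i * rowE v j i| := abs_sum_le_sum_abs _ _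
        _ ≤ ∑ i ∈ R, (∑ k ∈ univ \ T, 4 * p.b / mu v G k) * (v i j) ^ 2 := by
            refine Finset.sum_le_sum fun i _ => ?_
            rw [abs_mul]
            have h8 : |rowE v j i| = (v i j) ^ 2 := abs_of_nonneg (sq_nonneg _)
            rw [h8]
            exact mul_le_mul_of_nonneg_right (hf3 i) (sq_nonneg _)
        _ = (∑ k ∈ univ \ T, 4 * p.b / mu v G k) * ∑ i ∈ R, (v i j) ^ 2 := by
            rw [Finset.mul_sum]
        _ ≤ _ := by
            refine mul_le_mul_of_nonneg_left (hmuR j) ?_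
            refine Finset.sum_nonneg fun k _ => ?_
            have h7 := mu_nonneg v G k
            have h8 := p.b_pos
            positivity
    have h8 : rowE v j = rowP v j j := by
      funext i
      simp only [rowE, rowP, sq]
    have h9 : |dot (rowE v j) c| ≤ (d : ℝ) ^ 2 + d + 3 := by
      rw [h8]
      exact h1 j j
    calc |D (rowE v j)| ≤ |∑ i ∈ R, f i * rowE v j i| + |dot (rowE v j) c| := abs_add_le _ _
      _ ≤ _ := by linarith
  · -- mixed moments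
    intro j l
    have h7 : |∑ i ∈ R, f i * rowP v j l i| ≤ p.ε * Real.sqrt (mu v G l) := by
      refine hfsum _ _ ?_
      refine le_trans (Finset.sum_le_sum fun i _ => ?_) (hmuR l)
      have h8 := coord_sq_le hv i j
      simp only [rowP]
      rw [mul_pow]
      nlinarith [sq_nonneg (v i l)]
    have h9 := h1 j l
    calc |D (rowP v j l)| ≤ |∑ i ∈ R, f i * rowP v j l i| + |dot (rowP v j l) c| := abs_add_le _ _
      _ ≤ _ := by linarith
  · -- the mass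
    have h7 : |∑ i ∈ R, f i * pm v L i| ≤ p.ε * Real.sqrt (pm v L h₂ * E2) := by
      refine hfsum _ _ ?_
      rw [hE2, Finset.mul_sum]
      refine Finset.sum_le_sum fun i hi => ?_
      have h8 := hR2 i hi
      have h9 := pm_nonneg (v := v) L i
      nlinarith
    calc |D (pm v L)| ≤ |∑ i ∈ R, f i * pm v L i| + |dot (pm v L) c| := abs_add_le _ _
      _ ≤ _ := by linarith
  · -- the length on the block
    have h7 : (fun j => D (rowC v j)) = δ + ev v c := by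
      funext j
      simp [hD, hδ, ev, rowC]
    rw [h7]
    have h8 := nrm_add_le L δ (ev v c)
    have h9 : (p.ε + 11) * Real.sqrt E2 = p.ε * Real.sqrt E2 + 11 * Real.sqrt E2 := by ring
    rw [h9]
    linarith
  · -- the energy functional
    have h7 : |∑ i ∈ R, f i * gf i| ≤ p.ε * Real.sqrt (42500 / 64 * (85000 * ((T \ L).card : ℝ))) :=
      hfsum gf _ (gBand_sq_sum hv hRG _)
    have h8 := sqrt_band_le (T \ L).card
    have h9 : p.ε * Real.sqrt (42500 / 64 * (85000 * ((T \ L).card : ℝ)))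
        ≤ 1 / 100 * (7600 * ((T \ L).card : ℝ)) :=
      mul_le_mul p.hε1 h8 (Real.sqrt_nonneg _) (by norm_num)
    have hM : (0 : ℝ) ≤ ((T \ L).card : ℝ) := Nat.cast_nonneg _
    calc |D gf| ≤ |∑ i ∈ R, f i * gf i| + |dot gf c| := abs_add_le _ _
      _ ≤ _ := by linarith
  · -- rich coordinates
    intro j hj
    rw [hmz j]
    have h7 : δ j = g j := hf1 j hj
    have h8 : avg j + u j + δ j + dot (rowC v j) c = dot (rowC v j) c := by
      rw [h7]
      simp only [hgdef]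
      ring
    rw [h8]
    rfl
  · -- the block bound
    intro s hs
    exact h4 (Ts p ν s \ L) (fun j hj => (Finset.mem_sdiff.1 hj).2) (wtf_le L s)
  · -- the potential
    have h7 := mid_sqs' L T hLT x y (v h) (v h₂) (v ea) (v eb) (sg v (G.erase h)) δ p.B p.ε
      (Real.sqrt E2) p.b hB0 hε0 (Real.sqrt_nonneg _) rfl
      (by
        intro j
        have h8 : y j = x j + sg v G j := by
          rw [hy]
          rfl
        have h9 : sg v G j = v h j + sg v (G.erase h) j :=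
          (Finset.add_sum_erase G (fun i => v i j) htop.1).symm
        linarith)
      (by
        rcases he with ⟨h8, h9⟩ | ⟨h8, h9⟩
        · left
          rw [h8, h9]
          exact ⟨rfl, rfl⟩
        · right
          rw [h8, h9]
          exact ⟨rfl, rfl⟩)
      hsign (hsqs_sub x hxB) (hsqs_sub y hyB) (sqrt_pm_le hv T h) (sqrt_pm_le hv T h₂) hu1
      hδnrm hδB
    have h8 : sqs T m ≤ sqs T ζ + 103 * E2 + 8467 * ((T \ L).card : ℝ) := by
      rw [hmζ]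
      exact h6
    have h9 : (Real.sqrt E2) ^ 2 = E2 := Real.sq_sqrt hE20
    have h10 : sqs T ζ ≤ _ := h7
    have h11 : nrm L (v h) = Real.sqrt (pm v L h) := rfl
    have h12 : nrm L (v h₂) = Real.sqrt (pm v L h₂) := rfl
    have h13 : nrm L (sg v (G.erase h)) = Sp v L G h := rfl
    rw [h11, h12, h13] at h10
    rw [h9]
    rw [h9] at h10
    have h14 : (103 + p.ε ^ 2) * E2 = 103 * E2 + p.ε ^ 2 * E2 := by ring
    rw [h14]
    linarith

end Vale.Agent.Lib.P262C
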