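import Vale.Agent.Lib.P262C.Child

/-!
# Recursion along the halving tree
-/

open Finset
open Vale.Agent.Lib.P262B

namespace Vale.Agent.Lib.P262C

set_option linter.unusedSectionVars false
set_option linter.unusedSimpArgs false
set_option linter.unusedVariables false

variable {ι : Type*} [Fintype ι] [DecidableEq ι] {d : ℕ}
variable {p : Pr d} {v : ι → Fin d → ℝ} {ν : Fin d → ℝ} {ℓ : ℕ} {L : Finset (Fin d)}
  {G : Finset ι} {x y : Fin d → ℝ} {h h₂ ea eb e e' : ι} {R R₁ R₂ RC : Finset ι}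
  {D : (ι → ℝ) → ℝ} {m : Fin d → ℝ} {φ : ℝ} {ee : Fin d → ℝ} {ς : ℝ}

lemma Ts_mono {s s' : ℕ} (hs : s ≤ s') : Ts p ν s ⊆ Ts p ν s' := by
  intro j hj
  simp only [Ts, Finset.mem_filter, Finset.mem_univ, true_and] at hj ⊢
  have h1 : (2 : ℝ) ^ (s + 1) ≤ 2 ^ (s' + 1) := pow_le_pow_right₀ (by norm_num) (by omega)
  have h2 := p.c_pos
  nlinarith

/-- Coordinates enter the low block: the slack. -/
lemma transition' (hv : ∀ i, ∑ j, (v i j) ^ 2 ≤ 1) {L L' : Finset (Fin d)} {C : Finset ι} {e h' : ι}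
    (hsub : L ⊆ L') (hne : L ≠ L') (hmu : ∀ j ∈ L' \ L, mu v C j < 64)
    (he : e ∈ C) (htop' : Top v L' C h') :
    XiQ v L' C h' ≤ XiQ v L C e + ((L' \ L).card : ℝ) * 67462 := by
  have hn1 : 1 ≤ (L' \ L).card := by
    refine Finset.card_pos.2 (Finset.sdiff_nonempty.2 ?_)
    intro h0
    exact hne (Finset.Subset.antisymm hsub h0)
  set n : ℝ := ((L' \ L).card : ℝ) with hn
  have hn1' : (1 : ℝ) ≤ n := by
    rw [hn]
    exact_mod_cast hn1
  have hLamn : 0 ≤ n * 64 := by positivity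
  have hEp : Ep v L' C h' ≤ Ep v L C e + n * 64 := by
    have h1 : Ep v L' C h' = ∑ i ∈ C, pm v L' i - pm v L' h' := by
      unfold Ep
      rw [← Finset.add_sum_erase C _ htop'.1]
      ring
    have h2 : Ep v L C e = ∑ i ∈ C, pm v L i - pm v L e := by
      unfold Ep
      rw [← Finset.add_sum_erase C _ he]
      ring
    have h3 : ∑ i ∈ C, pm v L' i = ∑ i ∈ C, pm v L i + ∑ j ∈ L' \ L, mu v C j := by
      simp only [pm_split (v := v) L L' hsub, Finset.sum_add_distrib, mu]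
      rw [Finset.sum_comm]
    have h4 : ∑ j ∈ L' \ L, mu v C j ≤ n * 64 := by
      calc ∑ j ∈ L' \ L, mu v C j ≤ ∑ j ∈ L' \ L, (64 : ℝ) :=
            Finset.sum_le_sum fun j hj => (hmu j hj).le
        _ = n * 64 := by simp [hn]
    have h5 : pm v L e ≤ pm v L' e := by
      rw [pm_split (v := v) L L' hsub e]
      have : 0 ≤ ∑ j ∈ L' \ L, (v e j) ^ 2 := Finset.sum_nonneg fun _ _ => sq_nonneg _
      linarith
    have h6 := htop'.2 e he
    rw [h1, h2, h3]
    linarith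
  have hEp0 : 0 ≤ Ep v L C e := Finset.sum_nonneg fun _ _ => pm_nonneg L _
  have hEp'0 : 0 ≤ Ep v L' C h' := Finset.sum_nonneg fun _ _ => pm_nonneg L' _
  -- upper bound for the new slack
  have hnew : XiQ v L' C h' ≤ 1050 * Ep v L C e + 1050 * (n * 64) + 4 + 250
      + Real.sqrt (Ep v L C e) + n * 8 := by
    unfold XiQ Xi
    rw [Real.sq_sqrt hEp'0]
    set r := Real.sqrt (pm v L' h') with hr
    have hr0 : 0 ≤ r := Real.sqrt_nonneg _
    have hr1 : r ≤ 1 := sqrt_pm_le hv L' h'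
    set S := Sp v L' C h' with hS
    have hS0 : 0 ≤ S := nrm_nonneg _ _
    set a := Real.sqrt (Ep v L' C h') with ha
    have ha0 : 0 ≤ a := Real.sqrt_nonneg _
    have h1 : r * min S (4 * r) ≤ 4 := by
      have h2 : min S (4 * r) ≤ 4 * r := min_le_right _ _
      have h3 : r * min S (4 * r) ≤ r * (4 * r) := mul_le_mul_of_nonneg_left h2 hr0
      nlinarith
    have h2 : 250 * r * min a r ≤ 250 := by
      have h3 : min a r ≤ 1 := (min_le_right _ _).trans hr1
      have h4 : 0 ≤ min a r := le_min ha0 hr0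
      have h5 : r * min a r ≤ 1 * 1 := mul_le_mul hr1 h3 h4 zero_le_one
      nlinarith
    have h3 : a ≤ Real.sqrt (Ep v L C e) + n * 8 := by
      have h4 : a ≤ Real.sqrt (Ep v L C e + n * 64) := Real.sqrt_le_sqrt hEp
      have h5 := sqrt_add_le' hEp0 hLamn
      have h6 : Real.sqrt (n * 64) ≤ n * 8 := by
        refine Real.sqrt_le_iff.2 ⟨by positivity, ?_⟩
        nlinarith
      linarith
    have h4 : 1050 * Ep v L' C h' ≤ 1050 * (Ep v L C e + n * 64) :=
      mul_le_mul_of_nonneg_left hEp (by norm_num)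
    linarith
  -- lower bound for the old slack
  have hold : 1050 * Ep v L C e + Real.sqrt (Ep v L C e) ≤ XiQ v L C e := by
    unfold XiQ Xi
    rw [Real.sq_sqrt hEp0]
    have hr0 : 0 ≤ Real.sqrt (pm v L e) := Real.sqrt_nonneg _
    have hS0 : 0 ≤ Sp v L C e := nrm_nonneg _ _
    have ha0 : 0 ≤ Real.sqrt (Ep v L C e) := Real.sqrt_nonneg _
    have h1 : 0 ≤ Real.sqrt (pm v L e) * min (Sp v L C e) (4 * Real.sqrt (pm v L e)) :=
      mul_nonneg hr0 (le_min hS0 (by linarith))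
    have h2 : 0 ≤ 250 * Real.sqrt (pm v L e) * min (Real.sqrt (Ep v L C e)) (Real.sqrt (pm v L e)) :=
      mul_nonneg (mul_nonneg (by norm_num) hr0) (le_min ha0 hr0)
    linarith
  linarith

lemma XiQ_nonneg (L : Finset (Fin d)) (G : Finset ι) (h : ι) : 0 ≤ XiQ v L G h :=
  Xi_nonneg (by norm_num) (by norm_num) (Real.sqrt_nonneg _) (Real.sqrt_nonneg _) (nrm_nonneg _ _)

lemma card_le_d (B : Finset (Fin d)) : (B.card : ℝ) ≤ d := by
  have : B.card ≤ d := by
    simpa using Finset.card_le_univ B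
  exact_mod_cast this

lemma cast_card_sdiff' {A B : Finset (Fin d)} (h : A ⊆ B) :
    ((B \ A).card : ℝ) = (B.card : ℝ) - (A.card : ℝ) := by
  have := Finset.card_sdiff_add_card_eq_card h
  have h2 : ((B \ A).card : ℝ) + (A.card : ℝ) = (B.card : ℝ) := by
    exact_mod_cast this
  linarith

lemma Potl_nonneg (ℓ : ℕ) (L : Finset (Fin d)) (G : Finset ι) (h : ι) :
    0 ≤ Potl p v ν ℓ L G h := by
  unfold Potl
  have h1 := XiQ_nonneg (v := v) L G h
  have h2 : 0 ≤ ∑ j ∈ Ts p ν ℓ \ L, (psi (mu v G j) + 67462) :=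
    Finset.sum_nonneg fun j _ => add_nonneg (psi_nonneg (mu_nonneg v G j)) (by norm_num)
  have h3 : 0 ≤ p.J₁ * ((d : ℝ) - ((Ts p ν ℓ).card : ℝ)) :=
    mul_nonneg p.J_nonneg (by linarith [card_le_d (Ts p ν ℓ)])
  linarith

/-- The sets of poor coordinates exhaust all coordinates. -/
lemma exists_Ts_univ (ℓ : ℕ) : ∃ s, ℓ ≤ s ∧ Ts p ν s = univ := by
  have hc := p.c_ge
  obtain ⟨n, hn⟩ := pow_unbounded_of_one_lt (∑ j, |ν j|) (by norm_num : (1 : ℝ) < 2)
  refine ⟨max ℓ n, le_max_left _ _, ?_⟩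
  ext j
  simp only [Ts, Finset.mem_filter, Finset.mem_univ, true_and, iff_true]
  have h1 : ν j ≤ ∑ j, |ν j| := by
    refine (le_abs_self _).trans ?_
    exact Finset.single_le_sum (f := fun j => |ν j|) (fun _ _ => abs_nonneg _) (Finset.mem_univ j)
  have h2 : (2 : ℝ) ^ n ≤ 2 ^ (max ℓ n + 1) :=
    pow_le_pow_right₀ (by norm_num) (by
      have := le_max_right ℓ n
      omega)
  have h3 : (0 : ℝ) < 2 ^ (max ℓ n + 1) := by positivity
  nlinarith

/-- Ends of nodes have bounded length. -/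
lemma end_univ {L : Finset (Fin d)} {G : Finset ι} {h : ι} {z : Fin d → ℝ}
    (hz : EndQ p v ν ℓ L G h z) : sqs univ z ≤ p.B := by
  obtain ⟨s, hs, hT⟩ := exists_Ts_univ (p := p) (ν := ν) ℓ
  have h1 := hz s hs
  rw [hT] at h1
  have h2 := Potl_nonneg (p := p) (v := v) (ν := ν) ℓ L G h
  have h3 : ((univ : Finset (Fin d)).card : ℝ) = d := by simp
  rw [h3] at h1
  linarith

/-- The potential after the step to a child. -/
lemma pot_step (hv : ∀ i, ∑ j, (v i j) ^ 2 ≤ 1) (hν : ∀ j, 0 ≤ ν j)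
    (sd : SplitData p v ν ℓ (Lo v G) G x y h h₂ ea eb R R₁ R₂ D m φ ee)
    (ch : ChildOf h h₂ R D e e' RC ς) (htr : TInv p v ν ℓ G) (hun : UInv p v ν ℓ G) :
    ∃ h', Top v (Lo v (insert e RC)) (insert e RC) h' ∧ ∀ Net : ℝ,
      XiQ v (Lo v G) (insert e RC) e + Net ≤ XiQ v (Lo v G) G h →
      Potl p v ν (ℓ + 1) (Lo v (insert e RC)) (insert e RC) h' + Net
        + 18000 * ((Ts p ν ℓ \ Lo v G).card : ℝ) ≤ Potl p v ν ℓ (Lo v G) G h := by
  classical
  set C := insert e RC with hC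
  set L := Lo v G with hL
  set L' := Lo v C with hL'
  set T := Ts p ν ℓ with hT
  set T' := Ts p ν (ℓ + 1) with hT'
  have hsC : C ⊆ G := Ch.sub_G sd ch
  have hLsub : L ⊆ L' := by
    intro j hj
    simp only [hL, hL', Low, Finset.mem_filter, Finset.mem_univ, true_and] at hj ⊢
    exact lt_of_le_of_lt (ChildOf.mu_mono hsC j) hj
  have htrC : TInv p v ν (ℓ + 1) C := Ch.track_child hv hν sd ch htr
  have hunC : UInv p v ν (ℓ + 1) C := Ch.unt_child hν sd ch htr hun
  have hLT : L ⊆ T := low_sub_T hν htr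
  have hL'T' : L' ⊆ T' := low_sub_T hν htrC
  have hTT' : T ⊆ T' := Ts_mono (by omega)
  -- the change of the slack
  obtain ⟨h', htop', hXi⟩ : ∃ h', Top v L' C h' ∧
      XiQ v L' C h' ≤ XiQ v L C e + ((L' \ L).card : ℝ) * 67462 := by
    by_cases hne : L = L'
    · rw [← hne]
      refine ⟨e, Ch.top sd ch, ?_⟩
      simp
    · have hemem : e ∈ C := Finset.mem_insert_self _ _
      obtain ⟨h', hh'mem, hh'max⟩ := Finset.exists_max_image C (pm v L') ⟨e, hemem⟩
      have htop' : Top v L' C h' := ⟨hh'mem, hh'max⟩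
      have hmu : ∀ j ∈ L' \ L, mu v C j < 64 := by
        intro j hj
        have := (Finset.mem_sdiff.1 hj).1
        simpa [hL', Low] using this
      exact ⟨h', htop', transition' hv hLsub hne hmu hemem htop'⟩
  refine ⟨h', htop', fun Net hNet => ?_⟩
  set F : Fin d → ℝ := fun j => psi (mu v C j) + 67462 with hF
  have hFnn : ∀ j, 67462 ≤ F j := fun j => by
    have := psi_nonneg (mu_nonneg v C j)
    simp only [hF]
    linarith
  have hs1 : ∑ j ∈ T' \ L', F j + ∑ j ∈ L' \ L, F j = ∑ j ∈ T' \ L, F j := by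
    have hsub : L' \ L ⊆ T' \ L := Finset.sdiff_subset_sdiff hL'T' subset_rfl
    have h0 : (T' \ L) \ (L' \ L) = T' \ L' := by
      ext j
      simp only [Finset.mem_sdiff]
      constructor
      · rintro ⟨⟨h1, h2⟩, h3⟩
        exact ⟨h1, fun h4 => h3 ⟨h4, h2⟩⟩
      · rintro ⟨h1, h2⟩
        exact ⟨⟨h1, fun h4 => h2 (hLsub h4)⟩, fun h4 => h2 h4.1⟩
    rw [← Finset.sum_sdiff hsub, h0]
  have hs2 : ∑ j ∈ T' \ T, F j + ∑ j ∈ T \ L, F j = ∑ j ∈ T' \ L, F j := by
    have hsub : T \ L ⊆ T' \ L := Finset.sdiff_subset_sdiff hTT' subset_rfl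
    have h0 : (T' \ L) \ (T \ L) = T' \ T := by
      ext j
      simp only [Finset.mem_sdiff]
      constructor
      · rintro ⟨⟨h1, h2⟩, h3⟩
        exact ⟨h1, fun h4 => h3 ⟨h4, h2⟩⟩
      · rintro ⟨h1, h2⟩
        exact ⟨⟨h1, fun h4 => h2 (hLT h4)⟩, fun h4 => h2 h4.1⟩
    rw [← Finset.sum_sdiff hsub, h0]
  have hs3 : ((L' \ L).card : ℝ) * 67462 ≤ ∑ j ∈ L' \ L, F j := by
    calc ((L' \ L).card : ℝ) * 67462 = ∑ _j ∈ L' \ L, (67462 : ℝ) := by simp
      _ ≤ _ := Finset.sum_le_sum fun j _ => hFnn j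
  have hJ : ∀ j ∈ T' \ T, F j ≤ p.J₁ := by
    intro j hj
    have h1 : j ∈ T' := (Finset.mem_sdiff.1 hj).1
    have h2 : mu v C j ≤ 5 / 2 * p.c := poor_mu hν htrC hunC h1
    have h3 := psi_mono (mu_nonneg v C j) h2
    have h4 := p.hψ
    simp only [hF]
    linarith
  have hs4 : ∑ j ∈ T' \ T, F j ≤ ((T'.card : ℝ) - (T.card : ℝ)) * p.J₁ := by
    calc ∑ j ∈ T' \ T, F j ≤ ∑ _j ∈ T' \ T, p.J₁ := Finset.sum_le_sum hJ
      _ = ((T' \ T).card : ℝ) * p.J₁ := by simp
      _ = _ := by rw [cast_card_sdiff' hTT']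
  have hband : ∀ j ∈ T \ L, 64 ≤ mu v G j := by
    intro j hj
    have := (Finset.mem_sdiff.1 hj).2
    simpa [hL, Low] using this
  have hdrop := Ch.band_drop hv sd ch hband
  have hs5 : ∑ j ∈ T \ L, F j = ∑ j ∈ T \ L, psi (mu v C j) + ((T \ L).card : ℝ) * 67462 := by
    simp only [hF, Finset.sum_add_distrib, Finset.sum_const, nsmul_eq_mul]
  have hs6 : ∑ j ∈ T \ L, (psi (mu v G j) + 67462)
      = ∑ j ∈ T \ L, psi (mu v G j) + ((T \ L).card : ℝ) * 67462 := by
    simp only [Finset.sum_add_distrib, Finset.sum_const, nsmul_eq_mul]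
  unfold Potl
  rw [← hT, ← hT', hs6]
  have hJ1 : p.J₁ * ((d : ℝ) - (T.card : ℝ))
      = p.J₁ * ((d : ℝ) - (T'.card : ℝ)) + ((T'.card : ℝ) - (T.card : ℝ)) * p.J₁ := by ring
  rw [hJ1]
  linarith

/-- The potential at an old end of a child. -/
lemma endQ_old {L' : Finset (Fin d)} {C : Finset ι} {h' : ι} {z : Fin d → ℝ}
    (hz : EndQ p v ν ℓ L G h z) (hpot : Potl p v ν (ℓ + 1) L' C h' ≤ Potl p v ν ℓ L G h) :
    EndQ p v ν (ℓ + 1) L' C h' z := by
  intro s hs
  have := hz s (by omega)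
  linarith

/-- The potential at the midpoint. -/
lemma endQ_mid {L' : Finset (Fin d)} {C : Finset ι} {h' : ι}
    (sd : SplitData p v ν ℓ L G x y h h₂ ea eb R R₁ R₂ D m φ ee) (hLT : L ⊆ Ts p ν ℓ)
    (hx : EndQ p v ν ℓ L G h x) (hy : EndQ p v ν ℓ L G h y)
    (hpot : Potl p v ν (ℓ + 1) L' C h'
      + (1 / 2 * Real.sqrt (pm v L h) * Real.sqrt (pm v L h₂) + 1 / 4 * (Real.sqrt (pm v L h₂)) ^ 2
      + 1 / 2 * Real.sqrt (pm v L h) * Sp v L G h - 1 / 4 * (Sp v L G h) ^ 2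
      + 2 * (Real.sqrt p.B + 1) * p.ε * Real.sqrt (∑ i ∈ R, pm v L i)
      + (103 + p.ε ^ 2) * (Real.sqrt (∑ i ∈ R, pm v L i)) ^ 2)
        + 18000 * ((Ts p ν ℓ \ L).card : ℝ) ≤ Potl p v ν ℓ L G h) :
    EndQ p v ν (ℓ + 1) L' C h' m := by
  intro s hs
  set T := Ts p ν ℓ with hT
  set S := Ts p ν s with hS
  have hTS : T ⊆ S := Ts_mono (by omega)
  have hLS : L ⊆ S := hLT.trans hTS
  have h1 : sqs S m = sqs T m + sqs (S \ T) m := sqs_split hTS m
  have h2 : sqs (S \ T) m = sqs (S \ T) ee := by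
    unfold sqs
    refine Finset.sum_congr rfl fun j hj => ?_
    rw [sd.me j (Finset.mem_sdiff.1 hj).2]
  have h3 : sqs (S \ T) ee ≤ sqs (S \ L) ee := by
    refine Finset.sum_le_sum_of_subset_of_nonneg ?_ (fun _ _ _ => sq_nonneg _)
    exact Finset.sdiff_subset_sdiff subset_rfl hLT
  have h4 : sqs (S \ L) ee ≤ 8464 * ((S \ L).card : ℝ) := sd.bl s (by omega)
  have h5 : ((S \ L).card : ℝ) = (S.card : ℝ) - (L.card : ℝ) := cast_card_sdiff' hLS
  have h6 : ((T \ L).card : ℝ) = (T.card : ℝ) - (L.card : ℝ) := cast_card_sdiff' hLT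
  have h7 := hx ℓ le_rfl
  have h8 := hy ℓ le_rfl
  have h9 := sd.mP
  have h10 : (0 : ℝ) ≤ ((T \ L).card : ℝ) := Nat.cast_nonneg _
  rw [← hT] at h9
  rw [h1, h2]
  rw [h5] at h4
  linarith

/-- One step of the recursion. -/
theorem node_step' (hv : ∀ i, ∑ j, (v i j) ^ 2 ≤ 1) (hν : ∀ j, 0 ≤ ν j)
    (inv : NodeInv p v ν ℓ G x y) (hcard : 2 ≤ G.card) :
    ∃ (G₁ G₂ : Finset ι) (m : Fin d → ℝ), Disjoint G₁ G₂ ∧ G₁ ∪ G₂ = G ∧ G₁.Nonempty ∧ G₂.Nonempty ∧
      m = x + sg v G₁ ∧ NodeInv p v ν (ℓ + 1) G₁ x m ∧ NodeInv p v ν (ℓ + 1) G₂ m y := by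
  classical
  obtain ⟨h, htop, hxP, hyP⟩ := inv.pot
  have hLT : Lo v G ⊆ Ts p ν ℓ := low_sub_T hν inv.track
  obtain ⟨h₂, ea, eb, R, R₁, R₂, D, m, φ, ee, sd⟩ :=
    exists_split' hv hν inv.hy inv.orth inv.track inv.unt hLT htop (end_univ hxP) (end_univ hyP)
      hcard
  have hR₁ : R₁ ⊆ R := by
    rw [← sd.hU]
    exact Finset.subset_union_left
  have hR₂ : R₂ ⊆ R := by
    rw [← sd.hU]
    exact Finset.subset_union_right
  have ch₁ : ChildOf h h₂ R D ea eb R₁ 1 := ⟨sd.he, hR₁, Or.inl rfl, fun w => by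
    rw [sd.hs1 w, one_mul]⟩
  have ch₂ : ChildOf h h₂ R D eb ea R₂ (-1) := ⟨by
    rcases sd.he with ⟨h1, h2⟩ | ⟨h1, h2⟩
    · exact Or.inr ⟨h2, h1⟩
    · exact Or.inl ⟨h2, h1⟩, hR₂, Or.inr rfl, fun w => by
    rw [sd.hs2 w]
    ring⟩
  have hne : ea ≠ eb := by
    have h1 := Ch.h_ne sd
    rcases sd.he with ⟨h2, h3⟩ | ⟨h2, h3⟩
    · rw [h2, h3]
      exact h1
    · rw [h2, h3]
      exact h1.symm
  have heaR₂ : ea ∉ insert eb R₂ := by
    intro h0
    rcases Finset.mem_insert.1 h0 with h1 | h1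
    · exact hne h1
    · exact Ch.e_notin sd ch₁ (hR₂ h1)
  have hM0 : (0 : ℝ) ≤ ((Ts p ν ℓ \ Lo v G).card : ℝ) := Nat.cast_nonneg _
  refine ⟨insert ea R₁, insert eb R₂, m, ?_, ?_, ⟨ea, Finset.mem_insert_self _ _⟩,
    ⟨eb, Finset.mem_insert_self _ _⟩, ?_, ?_, ?_⟩
  · rw [Finset.disjoint_left]
    intro i hi hi'
    rcases Finset.mem_insert.1 hi with rfl | hi1
    · exact heaR₂ hi'
    · rcases Finset.mem_insert.1 hi' with rfl | hi2
      · exact Ch.e_notin sd ch₂ (hR₁ hi1)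
      · exact (Finset.disjoint_left.1 sd.hdisj) hi1 hi2
  · -- union
    rw [sd.hG]
    ext i
    have hU := sd.hU
    simp only [Finset.mem_union, Finset.mem_insert]
    have h1 : i ∈ R ↔ i ∈ R₁ ∨ i ∈ R₂ := by
      rw [← hU]
      simp
    rcases sd.he with ⟨h2, h3⟩ | ⟨h2, h3⟩ <;> rw [h2, h3, h1] <;> tauto
  · funext j
    have h1 : sg v (insert ea R₁) j = v ea j + ∑ i ∈ R₁, v i j :=
      Ch.sum_C sd ch₁ (fun i => v i j)
    simp only [Pi.add_apply]
    rw [h1, sd.hm j]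
    ring
  · refine ⟨?_, Ch.orth_child hv hν sd ch₁ inv.orth inv.track, Ch.track_child hv hν sd ch₁ inv.track,
      Ch.unt_child hν sd ch₁ inv.track inv.unt, ?_⟩
    · funext j
      have h1 : sg v (insert ea R₁) j = v ea j + ∑ i ∈ R₁, v i j :=
        Ch.sum_C sd ch₁ (fun i => v i j)
      simp only [Pi.add_apply]
      rw [h1, sd.hm j]
      ring
    · obtain ⟨h', htop', hpot⟩ := pot_step hv hν sd ch₁ inv.track inv.unt
      have hxi := Ch.xi_child sd ch₁
      have h0 := hpot 0 (by linarith [hxi.1])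
      refine ⟨h', htop', endQ_old hxP (by linarith), endQ_mid sd hLT hxP hyP (hpot _ hxi.2)⟩
  · refine ⟨?_, Ch.orth_child hv hν sd ch₂ inv.orth inv.track, Ch.track_child hv hν sd ch₂ inv.track,
      Ch.unt_child hν sd ch₂ inv.track inv.unt, ?_⟩
    · funext j
      have h1 : sg v (insert eb R₂) j = v eb j + ∑ i ∈ R₂, v i j :=
        Ch.sum_C sd ch₂ (fun i => v i j)
      simp only [Pi.add_apply]
      rw [h1, sd.hy2 j]
      ring
    · obtain ⟨h', htop', hpot⟩ := pot_step hv hν sd ch₂ inv.track inv.unt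
      have hxi := Ch.xi_child sd ch₂
      have h0 := hpot 0 (by linarith [hxi.1])
      refine ⟨h', htop', endQ_mid sd hLT hxP hyP (hpot _ hxi.2), endQ_old hyP (by linarith)⟩

/-- The recursion. -/
theorem tree' (hv : ∀ i, ∑ j, (v i j) ^ 2 ≤ 1) (hν : ∀ j, 0 ≤ ν j) :
    ∀ (n : ℕ) (ℓ : ℕ) (G : Finset ι) (x y : Fin d → ℝ), G.card = n → G.Nonempty →
      NodeInv p v ν ℓ G x y → CGood v p.B x G := by
  intro n
  induction n using Nat.strong_induction_on with
  | _ n ih =>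
    intro ℓ G x y hcard hne inv
    by_cases h2 : 2 ≤ G.card
    · obtain ⟨G₁, G₂, m, hd, hU, hne₁, hne₂, hm, inv₁, inv₂⟩ := node_step' hv hν inv h2
      have hc : G.card = G₁.card + G₂.card := by
        rw [← hU, Finset.card_union_of_disjoint hd]
      have hp₁ : 0 < G₁.card := Finset.card_pos.2 hne₁
      have hp₂ : 0 < G₂.card := Finset.card_pos.2 hne₂
      have g₁ := ih G₁.card (by omega) (ℓ + 1) G₁ x m rfl hne₁ inv₁
      have g₂ := ih G₂.card (by omega) (ℓ + 1) G₂ m y rfl hne₂ inv₂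
      rw [← hU]
      refine CGood.union hd g₁ ?_
      rw [← hm]
      exact g₂
    · have h1 : G.card = 1 := by
        have := Finset.card_pos.2 hne
        omega
      obtain ⟨i, rfl⟩ := Finset.card_eq_one.1 h1
      obtain ⟨h, htop, hxP, hyP⟩ := inv.pot
      refine ⟨[i], List.nodup_singleton i, by simp, ?_, ?_⟩
      · exact end_univ hxP
      · have hy' : x + v i = y := by
          rw [inv.hy]
          congr 1
          funext j
          simp [sg]
        rw [hy']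
        exact end_univ hyP

/-- The root. -/
lemma root_inv' (hv : ∀ i, ∑ j, (v i j) ^ 2 ≤ 1) {G : Finset ι} (hne : G.Nonempty)
    (h0 : sg v G = 0) (horth : ∀ j l, j ≠ l → Mx v G j l = 0) :
    NodeInv p v (mu v G) 0 G 0 0 := by
  have hν : ∀ j, 0 ≤ mu v G j := mu_nonneg v G
  have htr : TInv p v (mu v G) 0 G := by
    intro j _
    have h1 : (2 : ℝ) ^ 0 * mu v G j - mu v G j = 0 := by simp
    rw [h1, abs_zero]
    have h2 : (0 : ℝ) ≤ (d : ℝ) ^ 2 + d + 4 := by positivity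
    simp only [sub_self, mul_zero, add_zero]
    positivity
  have hun : UInv p v (mu v G) 0 G := by
    intro j hj
    have h1 : mu v G j < (2 : ℝ) ^ 0 * p.Lp := not_le.1 hj
    have h2 := p.Lp_pos
    simp only [pow_zero, one_mul] at h1
    linarith
  refine ⟨by simp [h0], ?_, htr, hun, ?_⟩
  · intro j l hjl _ _
    rw [horth j l hjl, abs_zero]
    have h1 := p.Δ_nonneg
    have h2 := p.hε0
    positivity
  · set L := Lo v G with hL
    obtain ⟨h, hmem, hmax⟩ := Finset.exists_max_image G (pm v L) hne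
    have htop : Top v L G h := ⟨hmem, hmax⟩
    set ν := mu v G with hνdef
    set T := Ts p ν 0 with hT
    have hLT : L ⊆ T := low_sub_T hν htr
    have hroot : EndQ p v ν 0 L G h 0 := by
      intro s _
      have hs : sqs (Ts p ν s) (0 : Fin d → ℝ) = 0 := by
        simp [sqs]
      rw [hs, zero_add]
      have hcardL : (L.card : ℝ) ≤ d := card_le_d L
      have hcardT : (T.card : ℝ) ≤ d := card_le_d T
      have hcardnn : (0 : ℝ) ≤ L.card := Nat.cast_nonneg _
      have hcardS : (0 : ℝ) ≤ (Ts p ν s).card := Nat.cast_nonneg _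
      have hdnn : (0 : ℝ) ≤ d := Nat.cast_nonneg _
      have hE : Ep v L G h ≤ (L.card : ℝ) * 64 := by
        have h1 : Ep v L G h ≤ ∑ i ∈ G, pm v L i :=
          Finset.sum_le_sum_of_subset_of_nonneg (Finset.erase_subset _ _)
            (fun _ _ _ => pm_nonneg L _)
        have h2 : ∑ i ∈ G, pm v L i = ∑ j ∈ L, mu v G j := by
          simp only [pm, mu]
          rw [Finset.sum_comm]
        have h3 : ∑ j ∈ L, mu v G j ≤ ∑ j ∈ L, (64 : ℝ) := by
          refine Finset.sum_le_sum fun j hj => ?_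
          have : mu v G j < 64 := by
            simpa [hL, Low] using hj
          exact this.le
        have h4 : ∑ j ∈ L, (64 : ℝ) = (L.card : ℝ) * 64 := by simp
        linarith
      have hE0 : 0 ≤ Ep v L G h := Finset.sum_nonneg fun _ _ => pm_nonneg L _
      have hXi : XiQ v L G h ≤ 1050 * ((L.card : ℝ) * 64) + 4 + 250 + (L.card : ℝ) * 8 := by
        unfold XiQ Xi
        rw [Real.sq_sqrt hE0]
        set r := Real.sqrt (pm v L h) with hr
        have hr0 : 0 ≤ r := Real.sqrt_nonneg _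
        have hr1 : r ≤ 1 := sqrt_pm_le hv L h
        set S := Sp v L G h with hS
        have hS0 : 0 ≤ S := nrm_nonneg _ _
        set a := Real.sqrt (Ep v L G h) with ha
        have ha0 : 0 ≤ a := Real.sqrt_nonneg _
        have h1 : r * min S (4 * r) ≤ 4 := by
          have h2 : min S (4 * r) ≤ 4 * r := min_le_right _ _
          have h3 : r * min S (4 * r) ≤ r * (4 * r) := mul_le_mul_of_nonneg_left h2 hr0
          nlinarith
        have h2 : 250 * r * min a r ≤ 250 := by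
          have h3 : min a r ≤ 1 := (min_le_right _ _).trans hr1
          have h4 : 0 ≤ min a r := le_min ha0 hr0
          have h5 : r * min a r ≤ 1 * 1 := mul_le_mul hr1 h3 h4 zero_le_one
          nlinarith
        have h3 : a ≤ (L.card : ℝ) * 8 := by
          refine Real.sqrt_le_iff.2 ⟨by positivity, hE.trans ?_⟩
          have h4 : (L.card : ℝ) ≤ (L.card : ℝ) ^ 2 := by
            rcases Nat.eq_zero_or_pos L.card with h5 | h5
            · simp [h5]
            · have h6 : (1 : ℝ) ≤ L.card := by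
                exact_mod_cast h5
              nlinarith
          nlinarith
        have h4 : 1050 * Ep v L G h ≤ 1050 * ((L.card : ℝ) * 64) :=
          mul_le_mul_of_nonneg_left hE (by norm_num)
        linarith
      have hJ1 := p.hψ
      have hJnn := p.J_nonneg
      have hψ0 : 0 ≤ psi (5 / 2 * p.c) := psi_nonneg (by have := p.c_pos; positivity)
      have hrow : ∀ j ∈ T \ L, psi (mu v G j) + 67462 ≤ p.J₁ := by
        intro j hj
        have h1 : mu v G j ≤ 5 / 2 * p.c := poor_mu hν htr hun (Finset.mem_sdiff.1 hj).1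
        have h3 := psi_mono (mu_nonneg v G j) h1
        linarith
      have hsum : ∑ j ∈ T \ L, (psi (mu v G j) + 67462) ≤ ((T.card : ℝ) - (L.card : ℝ)) * p.J₁ := by
        calc ∑ j ∈ T \ L, (psi (mu v G j) + 67462) ≤ ∑ _j ∈ T \ L, p.J₁ := Finset.sum_le_sum hrow
          _ = ((T \ L).card : ℝ) * p.J₁ := by simp
          _ = _ := by rw [cast_card_sdiff' hLT]
      have hJL : (L.card : ℝ) * (67200 + 8) ≤ (L.card : ℝ) * p.J₁ :=
        mul_le_mul_of_nonneg_left (by linarith) hcardnn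
      have hB := p.hB
      have h254 : 254 ≤ p.J₁ := by linarith
      have hB' : p.J₁ * (d : ℝ) + 8464 * (d : ℝ) + 254 ≤ p.B := by
        have : (p.J₁ + 8464) * ((d : ℝ) + 1) = p.J₁ * (d : ℝ) + 8464 * (d : ℝ) + p.J₁ + 8464 := by
          ring
        linarith
      have hfin : XiQ v L G h + ∑ j ∈ T \ L, (psi (mu v G j) + 67462)
          + p.J₁ * ((d : ℝ) - (T.card : ℝ)) ≤ p.J₁ * (d : ℝ) + 254 := by
        have h9 : p.J₁ * ((d : ℝ) - (T.card : ℝ)) = p.J₁ * (d : ℝ) - (T.card : ℝ) * p.J₁ := by ring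
        have h10 : ((T.card : ℝ) - (L.card : ℝ)) * p.J₁
            = (T.card : ℝ) * p.J₁ - (L.card : ℝ) * p.J₁ := by ring
        linarith
      unfold Potl
      rw [← hT]
      nlinarith
    exact ⟨h, htop, hroot, hroot⟩

/-- The main theorem in coordinates. -/
theorem coord_main' (p : Pr d) (v : ι → Fin d → ℝ) (hv : ∀ i, ∑ j, (v i j) ^ 2 ≤ 1)
    [Nonempty ι] (h0 : sg v univ = 0) (horth : ∀ j l, j ≠ l → Mx v univ j l = 0) :
    ∃ l : List ι, l.Nodup ∧ l.toFinset = univ ∧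
      ∀ k : ℕ, sqs univ ((l.take k).map v).sum ≤ p.B := by
  have hne : (univ : Finset ι).Nonempty := Finset.univ_nonempty
  obtain ⟨l, n, e, g⟩ := tree' (p := p) hv (mu_nonneg v univ) _ 0 univ 0 0 rfl hne
    (root_inv' hv hne h0 horth)
  refine ⟨l, n, e, fun k => ?_⟩
  have := g.initSeg k
  simpa using this

end Vale.Agent.Lib.P262C
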