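import Vale.Agent.Lib.P262B.Main

/-!
# A weighted walk in the cube

Spectral cuts of quadratic forms, and a walk which halves the fractional coordinates while the
squared error on flat rows is at most the movement, and the squared error on a weighted block
is at most the weighted movement.
-/

open Finset
open scoped InnerProductSpace
open Vale.Agent.Lib.P262B

namespace Vale.Agent.Lib.P262C

set_option linter.unusedSectionVars false
set_option linter.unusedSimpArgs false
set_option linter.unusedVariables false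

variable {ι : Type*} [Fintype ι] [DecidableEq ι]

/-- A spectral cut: off a small family of functionals a quadratic form has a small Rayleigh
quotient. -/
lemma exists_spectral_cut {ρ : Type*} [Fintype ρ] (c : ρ → ι → ℝ) (κ : ℝ) (hκ : 0 < κ) :
    ∃ Φ : Finset (ι → ℝ), κ * (Φ.card : ℝ) ≤ ∑ r, ∑ i, (c r i) ^ 2 ∧
      ∀ x : ι → ℝ, (∀ φ ∈ Φ, dot φ x = 0) → ∑ r, (dot (c r) x) ^ 2 ≤ κ * ∑ i, (x i) ^ 2 := by
  classical
  let E := EuclideanSpace ℝ ι
  let cv : ρ → E := fun r => WithLp.toLp 2 (c r)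
  let T : E →ₗ[ℝ] E := ∑ r, (innerₛₗ ℝ (cv r)).smulRight (cv r)
  have hTapp : ∀ u, T u = ∑ r, ⟪cv r, u⟫_ℝ • cv r := by
    intro u
    simp [T, LinearMap.sum_apply]
  have hT : T.IsSymmetric := by
    intro a b
    rw [hTapp, hTapp, sum_inner, inner_sum]
    refine Finset.sum_congr rfl fun r _ => ?_
    rw [real_inner_smul_left, real_inner_smul_right, real_inner_comm a (cv r)]
    ring
  have hn : Module.finrank ℝ E = Fintype.card ι := by
    simp [E]
  let b := hT.eigenvectorBasis hn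
  let lam : Fin (Fintype.card ι) → ℝ := hT.eigenvalues hn
  have hTb : ∀ l, T (b l) = lam l • b l := fun l => hT.apply_eigenvectorBasis hn l
  have hinner : ∀ (u : E) (r : ρ), ⟪cv r, u⟫_ℝ = dot (c r) (fun i => u i) := by
    intro u r
    simp only [PiLp.inner_apply, dot, cv]
    refine Finset.sum_congr rfl fun i _ => ?_
    simp [mul_comm]
  have hparseval : ∀ u : E, ∑ l, (⟪b l, u⟫_ℝ) ^ 2 = ‖u‖ ^ 2 := by
    intro u
    have := b.sum_sq_norm_inner_right u
    simpa [Real.norm_eq_abs, sq_abs] using this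
  have hlam : ∀ l, lam l = ∑ r, (⟪cv r, b l⟫_ℝ) ^ 2 := by
    intro l
    have h1 : ⟪b l, T (b l)⟫_ℝ = lam l := by
      rw [hTb, real_inner_smul_right]
      have : ⟪b l, b l⟫_ℝ = 1 := by
        rw [real_inner_self_eq_norm_sq, b.norm_eq_one l]
        norm_num
      rw [this, mul_one]
    rw [← h1, hTapp, inner_sum]
    refine Finset.sum_congr rfl fun r _ => ?_
    rw [real_inner_smul_right, real_inner_comm (b l) (cv r)]
    ring
  have hlam0 : ∀ l, 0 ≤ lam l := by
    intro l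
    rw [hlam]
    exact Finset.sum_nonneg fun _ _ => sq_nonneg _
  have htrace : ∑ l, lam l = ∑ r, ∑ i, (c r i) ^ 2 := by
    simp only [hlam]
    rw [Finset.sum_comm]
    refine Finset.sum_congr rfl fun r _ => ?_
    have h1 := b.sum_sq_norm_inner_left (cv r)
    have h2 : ‖cv r‖ ^ 2 = ∑ i, (c r i) ^ 2 := by
      rw [EuclideanSpace.real_norm_sq_eq]
    rw [← h2, ← h1]
    refine Finset.sum_congr rfl fun l _ => ?_
    rw [Real.norm_eq_abs, sq_abs]
  let big : Finset (Fin (Fintype.card ι)) := univ.filter fun l => κ < lam l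
  let Φ : Finset (ι → ℝ) := big.image fun l => fun i => b l i
  refine ⟨Φ, ?_, ?_⟩
  · have h1 : (Φ.card : ℝ) ≤ big.card := by
      exact_mod_cast Finset.card_image_le
    have h2 : κ * (big.card : ℝ) ≤ ∑ l ∈ big, lam l := by
      rw [← nsmul_eq_mul', ← Finset.sum_const]
      exact Finset.sum_le_sum fun l hl => (by simpa [big] using hl : κ < lam l).le
    have h3 : ∑ l ∈ big, lam l ≤ ∑ l, lam l :=
      Finset.sum_le_sum_of_subset_of_nonneg (Finset.subset_univ _) (fun l _ _ => hlam0 l)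
    rw [htrace] at h3
    have h4 := mul_le_mul_of_nonneg_left h1 hκ.le
    linarith
  · intro x hx
    let u : E := WithLp.toLp 2 x
    have hu : ∀ l, ⟪b l, u⟫_ℝ = dot (fun i => b l i) x := by
      intro l
      simp only [PiLp.inner_apply, dot, u]
      refine Finset.sum_congr rfl fun i _ => ?_
      simp [mul_comm]
    have hzero : ∀ l, κ < lam l → ⟪b l, u⟫_ℝ = 0 := by
      intro l hl
      rw [hu]
      exact hx _ (Finset.mem_image_of_mem _ (by simp [big, hl]))
    have hform : ∑ r, (dot (c r) x) ^ 2 = ⟪u, T u⟫_ℝ := by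
      rw [hTapp, inner_sum]
      refine Finset.sum_congr rfl fun r _ => ?_
      rw [real_inner_smul_right, real_inner_comm (cv r) u, hinner u r]
      ring
    have hexp : ⟪u, T u⟫_ℝ = ∑ l, lam l * (⟪b l, u⟫_ℝ) ^ 2 := by
      have h1 : ⟪u, T u⟫_ℝ = ∑ l, ⟪u, b l⟫_ℝ * ⟪b l, T u⟫_ℝ := by
        rw [b.sum_inner_mul_inner]
      rw [h1]
      refine Finset.sum_congr rfl fun l _ => ?_
      have h2 : ⟪b l, T u⟫_ℝ = ⟪T (b l), u⟫_ℝ := (hT (b l) u).symm
      rw [h2, hTb, real_inner_smul_left, real_inner_comm u (b l)]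
      ring
    rw [hform, hexp]
    have h1 : ∑ l, lam l * (⟪b l, u⟫_ℝ) ^ 2 ≤ ∑ l, κ * (⟪b l, u⟫_ℝ) ^ 2 := by
      refine Finset.sum_le_sum fun l _ => ?_
      by_cases hl : κ < lam l
      · rw [hzero l hl]
        simp
      · exact mul_le_mul_of_nonneg_right (not_lt.1 hl) (sq_nonneg _)
    have h2 : ∑ l, κ * (⟪b l, u⟫_ℝ) ^ 2 = κ * ∑ i, (x i) ^ 2 := by
      rw [← Finset.mul_sum, hparseval, EuclideanSpace.real_norm_sq_eq]
    linarith

/-- A spectral cut relative to the weights `n`, for vectors supported on `A`. -/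
lemma weighted_cut {ρ : Type*} [Fintype ρ] (c : ρ → ι → ℝ) (n : ι → ℝ) (hn : ∀ i, 0 < n i)
    (A : Finset ι) (hc : ∀ i ∈ A, ∑ r, (c r i) ^ 2 ≤ n i) :
    ∃ Φ : Finset (ι → ℝ), 4 * Φ.card ≤ A.card ∧
      ∀ w : ι → ℝ, (∀ i, i ∉ A → w i = 0) → (∀ φ ∈ Φ, dot φ w = 0) →
        ∑ r, (dot (c r) w) ^ 2 ≤ 4 * ∑ i, n i * (w i) ^ 2 := by
  classical
  let ch : ρ → ι → ℝ := fun r i => if i ∈ A then c r i / Real.sqrt (n i) else 0
  have hs : ∀ i, Real.sqrt (n i) * Real.sqrt (n i) = n i := fun i => Real.mul_self_sqrt (hn i).le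
  have hs0 : ∀ i, 0 < Real.sqrt (n i) := fun i => Real.sqrt_pos.2 (hn i)
  have htrace : ∑ r, ∑ i, (ch r i) ^ 2 ≤ (A.card : ℝ) := by
    rw [Finset.sum_comm]
    calc ∑ i, ∑ r, (ch r i) ^ 2 ≤ ∑ i, (if i ∈ A then (1 : ℝ) else 0) := by
          refine Finset.sum_le_sum fun i _ => ?_
          by_cases hi : i ∈ A
          · simp only [ch, hi, if_true, div_pow]
            rw [← Finset.sum_div, Real.sq_sqrt (hn i).le, div_le_one (hn i)]
            exact hc i hi
          · simp [ch, hi]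
      _ = (A.card : ℝ) := by
          rw [Finset.sum_ite_mem, Finset.univ_inter]
          simp
  obtain ⟨Φh, hcard, hcut⟩ := exists_spectral_cut ch 4 (by norm_num)
  let pull : (ι → ℝ) → (ι → ℝ) := fun φ i => φ i * Real.sqrt (n i)
  refine ⟨Φh.image pull, ?_, ?_⟩
  · have h1 : ((Φh.image pull).card : ℝ) ≤ Φh.card := by
      exact_mod_cast Finset.card_image_le
    have h2 : (4 : ℝ) * ((Φh.image pull).card : ℝ) ≤ A.card := by linarith
    exact_mod_cast h2
  · intro w hw hφ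
    let x : ι → ℝ := fun i => Real.sqrt (n i) * w i
    have h1 : ∀ φ ∈ Φh, dot φ x = 0 := by
      intro φ hφ'
      have := hφ (pull φ) (Finset.mem_image_of_mem _ hφ')
      simp only [dot, pull] at this ⊢
      rw [← this]
      refine Finset.sum_congr rfl fun i _ => ?_
      simp only [x]
      ring
    have h2 := hcut x h1
    have h3 : ∀ r, dot (ch r) x = dot (c r) w := by
      intro r
      simp only [dot]
      refine Finset.sum_congr rfl fun i _ => ?_
      by_cases hi : i ∈ A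
      · have h5 := (hs0 i).ne'
        simp only [ch, hi, if_true, x]
        field_simp
      · simp [ch, hi, hw i hi]
    have h4 : ∑ i, (x i) ^ 2 = ∑ i, n i * (w i) ^ 2 := by
      refine Finset.sum_congr rfl fun i _ => ?_
      simp only [x]
      rw [mul_pow, Real.sq_sqrt (hn i).le]
    simp only [h3] at h2
    rw [h4] at h2
    exact h2

section Phase

variable {ρ ρ' : Type*} [Fintype ρ] [Fintype ρ'] [DecidableEq ρ]

/-- Squared distance to the centre of the cube. -/
noncomputable def Yf (t : ι → ℝ) : ℝ := ∑ i, (t i - 1 / 2) ^ 2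

/-- Weighted squared distance to the centre of the cube. -/
noncomputable def Yn (n t : ι → ℝ) : ℝ := ∑ i, n i * (t i - 1 / 2) ^ 2

/-- Squared error on rows. -/
def Sr {κ : Type*} [Fintype κ] (b : κ → ι → ℝ) (t₀ t : ι → ℝ) : ℝ :=
  ∑ r, (dot (b r) t - dot (b r) t₀) ^ 2

/-- Invariants of one phase of the walk: `t₀` is the start of the phase and `ts` is the start
of the whole walk. -/
structure WInv (b : ρ → ι → ℝ) (c : ρ' → ι → ℝ) (n : ι → ℝ) (Pm : Finset (ι → ℝ))
    (ts t₀ t : ι → ℝ) : Prop where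
  box : Box t
  off : ∀ i, i ∉ frac t₀ → t i = t₀ i
  perm : ∀ φ ∈ Pm, dot φ t = dot φ t₀
  pot : Sr b t₀ t ≤ 2 * (Yf t - Yf t₀)
  potL : Sr c ts t ≤ 4 * (Yn n t - Yn n ts)

omit [DecidableEq ρ] in
lemma WInv.frac_subset {b : ρ → ι → ℝ} {c : ρ' → ι → ℝ} {n : ι → ℝ} {Pm : Finset (ι → ℝ)}
    {ts t₀ t : ι → ℝ} (h : WInv b c n Pm ts t₀ t) : frac t ⊆ frac t₀ := by
  intro i hi
  by_contra hn'
  have h1 := h.off i hn'
  have h2 := mem_frac.1 hi
  rw [h1] at h2
  exact hn' (mem_frac.2 h2)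

omit [DecidableEq ρ] in
lemma Yf_diff_le {t₀ t : ι → ℝ} (hb : Box t) (hoff : ∀ i, i ∉ frac t₀ → t i = t₀ i) :
    Yf t - Yf t₀ ≤ ((frac t₀).card : ℝ) / 4 := by
  unfold Yf
  rw [← Finset.sum_sub_distrib]
  calc ∑ i, ((t i - 1 / 2) ^ 2 - (t₀ i - 1 / 2) ^ 2)
      ≤ ∑ i, (if i ∈ frac t₀ then (1 / 4 : ℝ) else 0) := by
        refine Finset.sum_le_sum fun i _ => ?_
        split_ifs with hi
        · have h1 := hb i
          nlinarith [sq_nonneg (t₀ i - 1 / 2), h1.1, h1.2]
        · rw [hoff i hi]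
          simp
    _ = ((frac t₀).card : ℝ) / 4 := by
        rw [Finset.sum_ite_mem, Finset.univ_inter, Finset.sum_const, nsmul_eq_mul]
        ring

omit [DecidableEq ρ] in
lemma Yn_diff_le {n t₀ t : ι → ℝ} (hn : ∀ i, 0 ≤ n i) (hb : Box t)
    (hoff : ∀ i, i ∉ frac t₀ → t i = t₀ i) :
    Yn n t - Yn n t₀ ≤ (∑ i ∈ frac t₀, n i) / 4 := by
  unfold Yn
  rw [← Finset.sum_sub_distrib, Finset.sum_div]
  calc ∑ i, (n i * (t i - 1 / 2) ^ 2 - n i * (t₀ i - 1 / 2) ^ 2)
      ≤ ∑ i, (if i ∈ frac t₀ then n i / 4 else 0) := by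
        refine Finset.sum_le_sum fun i _ => ?_
        split_ifs with hi
        · have h1 := hb i
          have h2 : (t i - 1 / 2) ^ 2 - (t₀ i - 1 / 2) ^ 2 ≤ 1 / 4 := by
            nlinarith [sq_nonneg (t₀ i - 1 / 2), h1.1, h1.2]
          have h3 := mul_le_mul_of_nonneg_left h2 (hn i)
          linarith
        · rw [hoff i hi]
          simp
    _ = _ := by
        rw [Finset.sum_ite_mem, Finset.univ_inter]

omit [DecidableEq ρ] in
lemma Sr_step {κ : Type*} [Fintype κ] (q : κ → ι → ℝ) (s₀ t w : ι → ℝ) (s : ℝ)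
    (h0 : dot (fun i => ∑ r, (dot (q r) t - dot (q r) s₀) * q r i) w = 0) :
    Sr q s₀ (t + s • w) = Sr q s₀ t + s ^ 2 * ∑ r, (dot (q r) w) ^ 2 := by
  have h1 : ∑ r, (dot (q r) t - dot (q r) s₀) * dot (q r) w = 0 := by
    rw [← h0]
    simp only [dot, Finset.sum_mul, Finset.mul_sum]
    rw [Finset.sum_comm]
    refine Finset.sum_congr rfl fun r _ => Finset.sum_congr rfl fun i _ => by ring
  unfold Sr
  calc ∑ r, (dot (q r) (t + s • w) - dot (q r) s₀) ^ 2
      = ∑ r, ((dot (q r) t - dot (q r) s₀) ^ 2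
          + 2 * s * ((dot (q r) t - dot (q r) s₀) * dot (q r) w)
          + s ^ 2 * (dot (q r) w) ^ 2) := by
        refine Finset.sum_congr rfl fun r _ => ?_
        rw [dot_add_right, dot_smul_right]
        ring
    _ = _ := by
        rw [Finset.sum_add_distrib, Finset.sum_add_distrib, ← Finset.mul_sum,
          ← Finset.mul_sum, h1]
        ring

/-- One step of the walk. -/
lemma walk_step (b : ρ → ι → ℝ) (c : ρ' → ι → ℝ) (n : ι → ℝ) (hn : ∀ i, 0 < n i)
    (hb : ∀ i, ∑ r, (b r i) ^ 2 ≤ 1) (hc : ∀ i, ∑ r, (c r i) ^ 2 ≤ n i)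
    (Pm : Finset (ι → ℝ)) (ts t₀ t : ι → ℝ) (a : ℕ) (ha : a = (frac t₀).card) (ha76 : 76 ≤ a)
    (hPm : 32 * Pm.card ≤ a + 96) (h : WInv b c n Pm ts t₀ t) (hbig : a < 2 * (frac t).card) :
    ∃ t₁, WInv b c n Pm ts t₀ t₁ ∧ (frac t₁).card < (frac t).card := by
  classical
  obtain ⟨f, hf⟩ : ∃ f, f = (frac t).card := ⟨_, rfl⟩
  rw [← hf] at hbig
  obtain ⟨Φ, hΦ, hcut⟩ := weighted_cut c n hn (frac t) (fun i _ => hc i)
  rw [← hf] at hΦ
  let gS : ι → ℝ := fun i => ∑ r, (dot (b r) t - dot (b r) t₀) * b r i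
  let gY : ι → ℝ := fun i => t i - 1 / 2
  let gSL : ι → ℝ := fun i => ∑ r, (dot (c r) t - dot (c r) ts) * c r i
  let gYn : ι → ℝ := fun i => n i * (t i - 1 / 2)
  let G : Finset (ι → ℝ) :=
    ((Pm ∪ Φ) ∪ {gS, gY, gSL, gYn}) ∪ (univ \ frac t).image eCoord
  have hcardι : f ≤ Fintype.card ι := by
    rw [hf]
    exact Finset.card_le_univ _
  have hGcard : G.card ≤ Pm.card + Φ.card + 4 + (Fintype.card ι - f) := by
    have h1 : ((Pm ∪ Φ) ∪ {gS, gY, gSL, gYn}).card ≤ Pm.card + Φ.card + 4 := by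
      have h2 := Finset.card_union_le (Pm ∪ Φ) ({gS, gY, gSL, gYn} : Finset (ι → ℝ))
      have h3 := Finset.card_union_le Pm Φ
      have h4 : ({gS, gY, gSL, gYn} : Finset (ι → ℝ)).card ≤ 4 := Finset.card_le_four
      omega
    have h5 : G.card ≤ ((Pm ∪ Φ) ∪ {gS, gY, gSL, gYn}).card
        + ((univ \ frac t).image (eCoord : ι → ι → ℝ)).card := Finset.card_union_le _ _
    have h7 : ((univ \ frac t).image (eCoord : ι → ι → ℝ)).card ≤ (univ \ frac t).card :=
      Finset.card_image_le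
    have h8 : (univ \ frac t).card = Fintype.card ι - f := by
      rw [Finset.card_sdiff_of_subset (Finset.subset_univ _), Finset.card_univ, hf]
    omega
  let k : ℕ := f - Pm.card - Φ.card - 4
  have hkpos : 0 < k := by
    simp only [k]
    omega
  have hkcard : G.card + k ≤ Fintype.card ι := by
    simp only [k]
    omega
  have hfk : f ≤ 2 * k := by
    simp only [k]
    omega
  let b' : ρ → ι → ℝ := fun r i => if i ∈ frac t then b r i else 0
  obtain ⟨w, hw0, hwG, hray⟩ := exists_small_rayleigh G b' k hkpos hkcard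
  have hmemL : ∀ φ, φ ∈ (Pm ∪ Φ) ∪ ({gS, gY, gSL, gYn} : Finset (ι → ℝ)) → φ ∈ G :=
    fun φ hφ => Finset.mem_union_left _ hφ
  have hwPm : ∀ φ ∈ Pm, dot φ w = 0 := fun φ hφ =>
    hwG φ (hmemL φ (Finset.mem_union_left _ (Finset.mem_union_left _ hφ)))
  have hwΦ : ∀ φ ∈ Φ, dot φ w = 0 := fun φ hφ =>
    hwG φ (hmemL φ (Finset.mem_union_left _ (Finset.mem_union_right _ hφ)))
  have hwS : dot gS w = 0 := hwG gS (hmemL _ (Finset.mem_union_right _ (by simp)))
  have hwY : dot gY w = 0 := hwG gY (hmemL _ (Finset.mem_union_right _ (by simp)))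
  have hwSL : dot gSL w = 0 := hwG gSL (hmemL _ (Finset.mem_union_right _ (by simp)))
  have hwYn : dot gYn w = 0 := hwG gYn (hmemL _ (Finset.mem_union_right _ (by simp)))
  have hwoff : ∀ i, i ∉ frac t → w i = 0 := by
    intro i hi
    have := hwG (eCoord i) (Finset.mem_union_right _ (Finset.mem_image_of_mem _ (by simp [hi])))
    rwa [dot_eCoord] at this
  have hdot' : ∀ r, dot (b' r) w = dot (b r) w := by
    intro r
    refine Finset.sum_congr rfl fun i _ => ?_
    by_cases hi : i ∈ frac t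
    · simp [b', hi]
    · simp [b', hi, hwoff i hi]
  have htr' : ∑ r, ∑ i, (b' r i) ^ 2 ≤ (f : ℝ) := by
    rw [Finset.sum_comm]
    calc ∑ i, ∑ r, (b' r i) ^ 2 ≤ ∑ i, (if i ∈ frac t then (1 : ℝ) else 0) := by
          refine Finset.sum_le_sum fun i _ => ?_
          by_cases hi : i ∈ frac t
          · simp only [b', hi, if_true]
            exact hb i
          · simp [b', hi]
      _ = (f : ℝ) := by
          rw [Finset.sum_ite_mem, Finset.univ_inter]
          simp [hf]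
  set W2 : ℝ := ∑ i, (w i) ^ 2 with hW2
  have hW2nn : 0 ≤ W2 := Finset.sum_nonneg fun _ _ => sq_nonneg _
  have hQ : ∑ r, (dot (b r) w) ^ 2 ≤ 2 * W2 := by
    have h1 : (k : ℝ) * ∑ r, (dot (b r) w) ^ 2 ≤ (f : ℝ) * W2 := by
      have h2 := hray
      simp only [hdot'] at h2
      exact le_trans h2 (mul_le_mul_of_nonneg_right htr' hW2nn)
    have h3 : (f : ℝ) ≤ 2 * k := by exact_mod_cast hfk
    have hkr : (0 : ℝ) < k := by exact_mod_cast hkpos
    have h4 : (k : ℝ) * ∑ r, (dot (b r) w) ^ 2 ≤ (k : ℝ) * (2 * W2) := by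
      nlinarith
    exact le_of_mul_le_mul_left h4 hkr
  have hQL : ∑ r, (dot (c r) w) ^ 2 ≤ 4 * ∑ i, n i * (w i) ^ 2 := hcut w hwoff hwΦ
  have hfrac_of : ∀ i, w i ≠ 0 → i ∈ frac t := by
    intro i hi
    by_contra hn'
    exact hi (hwoff i hn')
  obtain ⟨i₀, hi₀⟩ := exists_neg_of_ne_zero hw0
  obtain ⟨s, hs, hcons, k₀, hkneg, hktight⟩ := line_search
    (Sum.elim t (fun i => 1 - t i)) (Sum.elim w (fun i => - w i))
    (by
      intro k' hk'
      cases k' with
      | inl i =>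
        simp only [Sum.elim_inl] at hk' ⊢
        exact (mem_frac.1 (hfrac_of i (ne_of_lt hk'))).1
      | inr i =>
        simp only [Sum.elim_inr] at hk' ⊢
        have := (mem_frac.1 (hfrac_of i (by intro h0; simp [h0] at hk'))).2
        linarith)
    (by
      intro k'
      cases k' with
      | inl i => simpa using (h.box i).1
      | inr i => simpa using (h.box i).2)
    (by
      rcases lt_or_gt_of_ne hi₀ with h1 | h1
      · exact ⟨Sum.inl i₀, by simpa using h1⟩
      · exact ⟨Sum.inr i₀, by simpa using h1⟩)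
  let t₁ : ι → ℝ := t + s • w
  have hrow₁ : ∀ (a' : ι → ℝ), dot a' t₁ = dot a' t + s * dot a' w := by
    intro a'
    simp only [t₁, dot_add_right, dot_smul_right]
  have hYf : Yf t₁ = Yf t + s ^ 2 * W2 := by
    have h1 : ∑ i, (t i - 1 / 2) * w i = 0 := hwY
    unfold Yf
    calc ∑ i, (t₁ i - 1 / 2) ^ 2
        = ∑ i, ((t i - 1 / 2) ^ 2 + 2 * s * ((t i - 1 / 2) * w i) + s ^ 2 * (w i) ^ 2) := by
          refine Finset.sum_congr rfl fun i _ => ?_
          simp only [t₁, Pi.add_apply, Pi.smul_apply, smul_eq_mul]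
          ring
      _ = _ := by
          rw [Finset.sum_add_distrib, Finset.sum_add_distrib, ← Finset.mul_sum,
            ← Finset.mul_sum, h1]
          ring
  have hYn : Yn n t₁ = Yn n t + s ^ 2 * ∑ i, n i * (w i) ^ 2 := by
    have h1 : ∑ i, n i * (t i - 1 / 2) * w i = 0 := hwYn
    unfold Yn
    calc ∑ i, n i * (t₁ i - 1 / 2) ^ 2
        = ∑ i, (n i * (t i - 1 / 2) ^ 2 + 2 * s * (n i * (t i - 1 / 2) * w i)
            + s ^ 2 * (n i * (w i) ^ 2)) := by
          refine Finset.sum_congr rfl fun i _ => ?_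
          simp only [t₁, Pi.add_apply, Pi.smul_apply, smul_eq_mul]
          ring
      _ = _ := by
          rw [Finset.sum_add_distrib, Finset.sum_add_distrib, ← Finset.mul_sum,
            ← Finset.mul_sum, h1]
          ring
  have hs2 : 0 ≤ s ^ 2 := sq_nonneg s
  refine ⟨t₁, ⟨?_, ?_, ?_, ?_, ?_⟩, ?_⟩
  · exact box_of_constraints hcons
  · intro i hi
    have h1 : i ∉ frac t := fun hmem => hi (h.frac_subset hmem)
    simp [t₁, hwoff i h1, h.off i hi]
  · intro φ hφ
    rw [hrow₁, hwPm φ hφ, mul_zero, add_zero]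
    exact h.perm φ hφ
  · rw [show Sr b t₀ t₁ = _ from Sr_step b t₀ t w s hwS, hYf]
    have h3 := h.pot
    have h4 := mul_le_mul_of_nonneg_left hQ hs2
    nlinarith
  · rw [show Sr c ts t₁ = _ from Sr_step c ts t w s hwSL, hYn]
    have h3 := h.potL
    have h4 := mul_le_mul_of_nonneg_left hQL hs2
    nlinarith
  · have hsubf : frac t₁ ⊆ frac t := by
      intro i hi
      by_contra hn'
      have h1 : t₁ i = t i := by simp [t₁, hwoff i hn']
      have h2 := mem_frac.1 hi
      rw [h1] at h2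
      exact hn' (mem_frac.2 h2)
    apply Finset.card_lt_card
    refine ⟨hsubf, fun hcontra => ?_⟩
    cases k₀ with
    | inl i =>
      simp only [Sum.elim_inl] at hkneg hktight
      have hi : i ∈ frac t := hfrac_of i (ne_of_lt hkneg)
      have h2 := mem_frac.1 (hcontra hi)
      simp only [t₁, Pi.add_apply, Pi.smul_apply, smul_eq_mul] at h2
      linarith [h2.1]
    | inr i =>
      simp only [Sum.elim_inr] at hkneg hktight
      have hi : i ∈ frac t := hfrac_of i (by intro h0; simp [h0] at hkneg)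
      have h2 := mem_frac.1 (hcontra hi)
      simp only [t₁, Pi.add_apply, Pi.smul_apply, smul_eq_mul] at h2
      linarith [h2.2]

/-- The walk halves the number of fractional coordinates. -/
lemma walk_phase (b : ρ → ι → ℝ) (c : ρ' → ι → ℝ) (n : ι → ℝ) (hn : ∀ i, 0 < n i)
    (hb : ∀ i, ∑ r, (b r i) ^ 2 ≤ 1) (hc : ∀ i, ∑ r, (c r i) ^ 2 ≤ n i)
    (Pm : Finset (ι → ℝ)) (ts t₀ : ι → ℝ) (a : ℕ) (ha : a = (frac t₀).card) (ha76 : 76 ≤ a)
    (hPm : 32 * Pm.card ≤ a + 96) (hbox : Box t₀) (hL : Sr c ts t₀ ≤ 4 * (Yn n t₀ - Yn n ts)) :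
    ∃ t, WInv b c n Pm ts t₀ t ∧ 2 * (frac t).card ≤ a := by
  have key : ∀ (M : ℕ) (t : ι → ℝ), WInv b c n Pm ts t₀ t → (frac t).card ≤ M →
      ∃ t', WInv b c n Pm ts t₀ t' ∧ 2 * (frac t').card ≤ a := by
    intro M
    induction M with
    | zero =>
      intro t ht hM
      refine ⟨t, ht, ?_⟩
      omega
    | succ M ih =>
      intro t ht hM
      by_cases hsmall : 2 * (frac t).card ≤ a
      · exact ⟨t, ht, hsmall⟩
      · obtain ⟨t₁, ht₁, hlt⟩ := walk_step b c n hn hb hc Pm ts t₀ t a ha ha76 hPm ht (by omega)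
        exact ih t₁ ht₁ (by omega)
  refine key _ t₀ ⟨hbox, fun _ _ => rfl, fun _ _ => rfl, ?_, hL⟩ le_rfl
  simp [Sr]

end Phase

end Vale.Agent.Lib.P262C
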